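import Mathlib
import Vale.Agent.P262.H493.Flag

/-!
# P262, milestone 1, block THR-M1, part 1: one dimensional facts
-/

set_option linter.all false

open MeasureTheory ProbabilityTheory Set
open scoped ENNReal

namespace Vale.Agent.P262.H706

open Vale.Agent.P262.H493

lemma edge_sub {I : Set ℝ} (hI : I.OrdConnected) {s : ℝ} (hs : 0 ≤ s)
    (hne : {r | r ∈ I ∧ r + s ∉ I}.Nonempty) :
    ∃ i : ℝ, {r | r ∈ I ∧ r + s ∉ I} ⊆ Icc i (i + s) ∧ ∀ t, i + s < t → t ∉ I := by
  set J : Set ℝ := {r | r ∈ I ∧ r + s ∉ I} with hJ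
  have key : ∀ r ∈ J, ∀ r' ∈ I, r' < r + s := by
    intro r hr r' hr'
    by_contra hc
    push Not at hc
    exact hr.2 (hI.out hr.1 hr' ⟨by linarith, hc⟩)
  obtain ⟨r0, hr0⟩ := hne
  have hb : BddBelow J := ⟨r0 - s, fun r hr => by have := key r hr r0 hr0.1; linarith⟩
  refine ⟨sInf J, ?_, ?_⟩
  · intro r hr
    refine ⟨csInf_le hb hr, ?_⟩
    have : r - s ≤ sInf J := by
      apply le_csInf ⟨r0, hr0⟩
      intro r' hr'
      have := key r' hr' r hr.1
      linarith
    linarith
  · intro t ht htI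
    have h1 : sInf J < t - s := by linarith
    obtain ⟨r, hr, hrt⟩ := exists_lt_of_csInf_lt ⟨r0, hr0⟩ h1
    have := key r hr t htI
    linarith

lemma vol_edge {I : Set ℝ} (hI : I.OrdConnected) {s : ℝ} (hs : 0 ≤ s) :
    volume {r | r ∈ I ∧ r + s ∉ I} ≤ ENNReal.ofReal s := by
  rcases Set.eq_empty_or_nonempty {r | r ∈ I ∧ r + s ∉ I} with h | h
  · rw [h]; simp
  · obtain ⟨i, hi, -⟩ := edge_sub hI hs h
    calc volume {r | r ∈ I ∧ r + s ∉ I} ≤ volume (Icc i (i + s)) := measure_mono hi
      _ = ENNReal.ofReal s := by rw [Real.volume_Icc]; congr 1; ring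

lemma lint_gauss {f : ℝ → ℝ≥0∞} (hf : Measurable f) :
    ∫⁻ r, f r ∂gaussianReal 0 1 = ∫⁻ r, ENNReal.ofReal (gaussianPDFReal 0 1 r) * f r := by
  rw [gaussianReal_of_var_ne_zero 0 (one_ne_zero), lintegral_withDensity_eq_lintegral_mul _
    (measurable_gaussianPDF 0 1) hf]
  rfl

/-- the mass of the end zone of an interval, weighted -/
lemma gauss_edge {I : Set ℝ} (hI : I.OrdConnected) (hIm : MeasurableSet I) {s : ℝ} (hs : 0 ≤ s)
    {f : ℝ → ℝ≥0∞} (hf : Measurable f) {G : ℝ≥0∞}
    (hG : ∀ r ∈ I, ENNReal.ofReal (gaussianPDFReal 0 1 r) * f r ≤ G) :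
    ∫⁻ r, f r * ({r | r ∈ I ∧ r + s ∉ I}).indicator 1 r ∂gaussianReal 0 1
      ≤ ENNReal.ofReal s * G := by
  have hJm : MeasurableSet {r | r ∈ I ∧ r + s ∉ I} := by
    apply hIm.inter
    exact (hIm.compl).preimage (measurable_id.add_const s)
  rw [lint_gauss (f := fun r => f r * ({r | r ∈ I ∧ r + s ∉ I}).indicator 1 r)
    (hf.mul (measurable_one.indicator hJm))]
  calc ∫⁻ r, ENNReal.ofReal (gaussianPDFReal 0 1 r)
        * (f r * ({r | r ∈ I ∧ r + s ∉ I}).indicator 1 r)
      ≤ ∫⁻ r, ({r | r ∈ I ∧ r + s ∉ I}).indicator (fun _ => G) r := by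
        apply lintegral_mono
        intro r
        by_cases h : r ∈ {r | r ∈ I ∧ r + s ∉ I}
        · simp only [indicator_of_mem h, Pi.one_apply, mul_one]
          exact hG r h.1
        · simp only [indicator_of_notMem h, mul_zero, le_refl]
    _ = G * volume {r | r ∈ I ∧ r + s ∉ I} := lintegral_indicator_const hJm G
    _ ≤ G * ENNReal.ofReal s := mul_le_mul' le_rfl (vol_edge hI hs)
    _ = ENNReal.ofReal s * G := mul_comm _ _

/-- the end zone of an interval is at most `C (1+R) s` times the dead mass of the line -/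
lemma gauss_fibre {I : Set ℝ} (hI : I.OrdConnected) (hIm : MeasurableSet I) {R s : ℝ}
    (hR : 0 ≤ R) (hs : 0 ≤ s) (hsR : s * (1 + R) ≤ 1) (hIR : ∀ r ∈ I, |r| ≤ R) :
    gaussianReal 0 1 {r | r ∈ I ∧ r + s ∉ I}
      ≤ ENNReal.ofReal (Real.exp 2 * (1 + R) * s) * gaussianReal 0 1 Iᶜ := by
  rcases Set.eq_empty_or_nonempty {r | r ∈ I ∧ r + s ∉ I} with h | h
  · rw [h]; simp
  obtain ⟨i, hi, hi2⟩ := edge_sub hI hs h
  set J : Set ℝ := {r | r ∈ I ∧ r + s ∉ I} with hJ
  have hJm : MeasurableSet J := hIm.inter ((hIm.compl).preimage (measurable_id.add_const s))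
  set η : ℝ := 1 / (1 + R) with hη
  have h1R : 0 < 1 + R := by linarith
  have hη0 : 0 < η := by positivity
  have hsη : s ≤ η := by rw [hη, le_div_iff₀ h1R]; exact hsR
  set T : Set ℝ := Ioc (i + s) (i + s + η) with hT
  have hTI : T ⊆ Iᶜ := fun t ht => hi2 t ht.1
  have hcmp : ∀ x ∈ J, ∀ y ∈ T, ENNReal.ofReal (Real.exp (-2)) * ee x ≤ ee y := by
    intro x hx y hy
    unfold ee
    rw [← ENNReal.ofReal_mul (Real.exp_pos _).le, ← Real.exp_add]
    apply ENNReal.ofReal_le_ofReal
    apply Real.exp_le_exp.mpr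
    have hx1 := hi hx
    have hxR := abs_le.mp (hIR x hx.1)
    have hd0 : 0 ≤ y - x := by have := hy.1; have := hx1.2; linarith
    have hd : y - x ≤ 2 * η := by have := hy.2; have := hx1.1; linarith
    have hηR : η * (1 + R) = 1 := by rw [hη]; field_simp
    have h1 : (y - x) * (2 * R + (y - x)) ≤ 4 := by
      have h2 : (y - x) * (2 * R + (y - x)) ≤ (2 * η) * (2 * R + 2 * η) := by
        apply mul_le_mul hd (by linarith) (by linarith) (by linarith)
      have h3 : η ≤ 1 := by rw [hη, div_le_one h1R]; linarith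
      nlinarith
    nlinarith
  set c : ℝ≥0∞ := ⨆ x ∈ J, ee x with hc
  have hJc : gaussianReal 0 1 J ≤ kk * c * volume J := by
    apply gauss_le _ hJm
    intro x hx
    exact le_iSup₂ (f := fun x (_ : x ∈ J) => ee x) x hx
  have hTc : kk * (ENNReal.ofReal (Real.exp (-2)) * c) * volume T ≤ gaussianReal 0 1 T := by
    apply gauss_ge _ measurableSet_Ioc
    intro y hy
    rw [hc, ENNReal.mul_iSup]
    apply iSup_le
    intro x
    rw [ENNReal.mul_iSup]
    apply iSup_le
    intro hx
    exact hcmp x hx y hy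
  have hvT : volume T = ENNReal.ofReal η := by
    rw [hT, Real.volume_Ioc]; congr 1; ring
  have hvJ : volume J ≤ ENNReal.ofReal s := vol_edge hI hs
  calc gaussianReal 0 1 J ≤ kk * c * ENNReal.ofReal s := hJc.trans (mul_le_mul' le_rfl hvJ)
    _ = ENNReal.ofReal (Real.exp 2 * (1 + R) * s)
        * (kk * (ENNReal.ofReal (Real.exp (-2)) * c) * ENNReal.ofReal η) := by
        have e1 : ENNReal.ofReal s = ENNReal.ofReal (Real.exp 2 * (1 + R) * s)
            * ENNReal.ofReal (Real.exp (-2)) * ENNReal.ofReal η := by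
          rw [← ENNReal.ofReal_mul (by positivity), ← ENNReal.ofReal_mul (by positivity)]
          congr 1
          have : Real.exp 2 * Real.exp (-2) = 1 := by rw [← Real.exp_add]; simp
          have h3 : (1 + R) * η = 1 := by rw [hη]; field_simp
          calc s = s * ((Real.exp 2 * Real.exp (-2)) * ((1 + R) * η)) := by rw [this, h3]; ring
            _ = _ := by ring
        rw [e1]
        ring
    _ ≤ ENNReal.ofReal (Real.exp 2 * (1 + R) * s) * gaussianReal 0 1 T := by
        rw [← hvT]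
        exact mul_le_mul' le_rfl hTc
    _ ≤ _ := mul_le_mul' le_rfl (measure_mono hTI)

/-- telescoping of the logarithm of a monotone function -/
lemma tel {M : ℝ → ℝ} (hM : Monotone M) (h0 : ∀ r, 0 ≤ M r) (h1 : ∀ r, M r ≤ 1) {a R s : ℝ}
    (ha : 0 < a) (hR : 0 ≤ R) (hs : 0 ≤ s) :
    ∫⁻ r in Icc (-R) R, ENNReal.ofReal (Real.log (M (r + s) + a) - Real.log (M r + a))
      ≤ ENNReal.ofReal (s * Real.log ((1 + a) / a)) := by
  set L : ℝ → ℝ := fun r => Real.log (M r + a) with hL
  have hLm : Monotone L := by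
    intro x y hxy
    apply Real.log_le_log (by have := h0 x; linarith)
    have := hM hxy
    linarith
  have hLs : Monotone fun r => L (r + s) := fun x y hxy => hLm (by linarith)
  have hlo : ∀ r, Real.log a ≤ L r := fun r =>
    Real.log_le_log ha (by have := h0 r; linarith)
  have hhi : ∀ r, L r ≤ Real.log (1 + a) := fun r =>
    Real.log_le_log (by have := h0 r; linarith) (by have := h1 r; linarith)
  have hi1 : ∀ x y, IntervalIntegrable L volume x y := fun x y => hLm.intervalIntegrable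
  have hi2 : ∀ x y, IntervalIntegrable (fun r => L (r + s)) volume x y :=
    fun x y => hLs.intervalIntegrable
  have hint : IntegrableOn (fun r => L (r + s) - L r) (Icc (-R) R) := by
    have := ((hi2 (-R) R).sub (hi1 (-R) R))
    rw [intervalIntegrable_iff_integrableOn_Icc_of_le (by linarith)] at this
    exact this
  have hnn : ∀ r, 0 ≤ L (r + s) - L r := fun r => by
    have := hLm (show r ≤ r + s by linarith)
    linarith
  have e1 : ∫⁻ r in Icc (-R) R, ENNReal.ofReal (L (r + s) - L r)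
      = ENNReal.ofReal (∫ r in Icc (-R) R, (L (r + s) - L r)) :=
    (ofReal_integral_eq_lintegral_ofReal hint (Filter.Eventually.of_forall hnn)).symm
  change ∫⁻ r in Icc (-R) R, ENNReal.ofReal (L (r + s) - L r) ≤ _
  rw [e1]
  apply ENNReal.ofReal_le_ofReal
  rw [integral_Icc_eq_integral_Ioc, ← intervalIntegral.integral_of_le (by linarith),
    intervalIntegral.integral_sub (hi2 _ _) (hi1 _ _)]
  rw [intervalIntegral.integral_comp_add_right (fun r => L r) s]
  have e2 : (∫ r in (-R + s)..(R + s), L r) - ∫ r in (-R)..R, L r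
      = (∫ r in R..(R + s), L r) - ∫ r in (-R)..(-R + s), L r := by
    have a1 := intervalIntegral.integral_add_adjacent_intervals (hi1 (-R) (-R + s))
      (hi1 (-R + s) (R + s))
    have a2 := intervalIntegral.integral_add_adjacent_intervals (hi1 (-R) R) (hi1 R (R + s))
    linarith
  rw [e2]
  have b1 : ∫ r in R..(R + s), L r ≤ s * Real.log (1 + a) := by
    have := intervalIntegral.integral_mono_on (a := R) (b := R + s) (by linarith) (hi1 _ _)
      (intervalIntegrable_const (c := Real.log (1 + a))) (fun r _ => hhi r)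
    rw [intervalIntegral.integral_const] at this
    simpa using this
  have b2 : s * Real.log a ≤ ∫ r in (-R)..(-R + s), L r := by
    have := intervalIntegral.integral_mono_on (a := -R) (b := -R + s) (by linarith)
      (intervalIntegrable_const (c := Real.log a)) (hi1 _ _) (fun r _ => hlo r)
    rw [intervalIntegral.integral_const] at this
    simpa using this
  rw [Real.log_div (by linarith) ha.ne']
  linarith

lemma min_log {m0 m1 a D : ℝ} (h0 : 0 ≤ m0) (h01 : m0 ≤ m1) (ha : 0 < a) (hD : m0 ≤ D)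
    (hDa : a ≤ D) : min 1 ((m1 - m0) / D) ≤ 3 * (Real.log (m1 + a) - Real.log (m0 + a)) := by
  have hp : 0 < m0 + a := by linarith
  have hD0 : 0 < D := by linarith
  set u := (m1 - m0) / (m0 + a) with hu
  have hu0 : 0 ≤ u := div_nonneg (by linarith) hp.le
  have h1 : (m1 - m0) / D ≤ 2 * u := by
    rw [hu, div_le_iff₀ hD0]
    have h2 : m0 + a ≤ 2 * D := by linarith
    have h3 : 2 * ((m1 - m0) / (m0 + a)) * D = (m1 - m0) * (2 * D / (m0 + a)) := by ring
    rw [h3]
    have h4 : 1 ≤ 2 * D / (m0 + a) := by rw [le_div_iff₀ hp]; linarith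
    nlinarith [sub_nonneg.mpr h01]
  have h2 : Real.log (m1 + a) - Real.log (m0 + a) = Real.log (1 + u) := by
    rw [← Real.log_div (by linarith) hp.ne']
    congr 1
    rw [hu]
    field_simp
    ring
  have h3 : 1 - (1 + u)⁻¹ ≤ Real.log (1 + u) := Real.one_sub_inv_le_log_of_pos (by linarith)
  have h4 : u / (1 + u) ≤ Real.log (1 + u) := by
    have : u / (1 + u) = 1 - (1 + u)⁻¹ := by field_simp; ring
    linarith
  rw [h2]
  rcases le_or_gt u (1 / 2) with h | h
  · have : 2 / 3 * u ≤ u / (1 + u) := by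
      rw [le_div_iff₀ (by linarith)]
      nlinarith
    calc min 1 ((m1 - m0) / D) ≤ (m1 - m0) / D := min_le_right _ _
      _ ≤ 3 * Real.log (1 + u) := by linarith
  · have : 1 / 3 ≤ u / (1 + u) := by
      rw [le_div_iff₀ (by linarith)]
      linarith
    calc min 1 ((m1 - m0) / D) ≤ 1 := min_le_left _ _
      _ ≤ 3 * Real.log (1 + u) := by linarith

end Vale.Agent.P262.H706
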