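import Mathlib
import Vale.Agent.P262.H59.Rim
import Vale.Agent.P262.H706.OneD

/-!
# P262, milestone 1, block THR-M1: the throughput of one rotation

Everything is conditional on a label of the subspace `W' = W_{j-1}`; `W = W_i` is the label space
of the level at which the throughput is measured.
-/

set_option linter.all false

open MeasureTheory ProbabilityTheory Set
open scoped ENNReal RealInnerProductSpace

namespace Vale.Agent.P262.H706

open Vale.Agent.P262.H395 Vale.Agent.P262.H59

variable {E : Type*} [NormedAddCommGroup E] [InnerProductSpace ℝ E] [FiniteDimensional ℝ E]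
  [MeasurableSpace E] [BorelSpace E]

/-- the points of `K` that leave `K` when moved by `s e` -/
def Cr (K : Set E) (e : E) (s : ℝ) : Set E := {x | x ∈ K ∧ x + s • e ∉ K}

lemma measurableSet_Cr {K : Set E} (hK : MeasurableSet K) (e : E) (s : ℝ) :
    MeasurableSet (Cr K e s) := by
  apply hK.inter
  have : Measurable fun x : E => x + s • e := by fun_prop
  exact (hK.compl).preimage this

lemma Hp_unit {e : E} (he : ‖e‖ = 1) (z : E) :
    z - (Hp e).starProjection z = ⟪e, z⟫ • e := by
  have := Hp_proj (v := e) z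
  rw [he, inv_one, one_smul] at this
  exact this

lemma Hp_unit' {e : E} (he : ‖e‖ = 1) (z : E) :
    (Hp e).starProjection z = z - ⟪e, z⟫ • e := by
  rw [← Hp_unit he z]; abel

lemma fib_line_fun {e : E} (he : ‖e‖ = 1) {f : E → ℝ≥0∞} (hf : Measurable f) (x : E) :
    fib (Hp e) f x = ∫⁻ r, f ((Hp e).starProjection x + r • e) ∂gaussianReal 0 1 := by
  have hm : Measurable fun z : E => ⟪e, z⟫ := by fun_prop
  rw [← map_inner_std he, lintegral_map (by fun_prop) hm]
  unfold fib
  apply lintegral_congr
  intro z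
  unfold mix
  rw [Hp_unit he z]

lemma le_Hp {W : Submodule ℝ E} {e : E} (he : e ∈ Wᗮ) : W ≤ Hp e := by
  intro w hw
  unfold Hp
  rw [Submodule.mem_orthogonal_singleton_iff_inner_right]
  rw [Submodule.mem_orthogonal'] at he
  exact he w hw

lemma e_mem_Hp_perp (e : E) : e ∈ (Hp e)ᗮ := by
  unfold Hp
  rw [Submodule.orthogonal_orthogonal]
  exact Submodule.mem_span_singleton_self e

/-- the trace of a convex set on a line is an interval -/
lemma line_ord {K : Set E} (hK : Convex ℝ K) (p e : E) :
    ({r : ℝ | p + r • e ∈ K}).OrdConnected := by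
  rw [← convex_iff_ordConnected]
  intro x hx y hy a b ha hb hab
  simp only [mem_setOf_eq] at hx hy ⊢
  have := hK hx hy ha hb hab
  have e1 : a • (p + x • e) + b • (p + y • e) = p + (a • x + b • y) • e := by
    simp only [smul_add, add_smul, smul_smul, smul_eq_mul]
    have : p = a • p + b • p := by rw [← add_smul, hab, one_smul]
    nth_rewrite 3 [this]
    abel
  rw [e1] at this
  exact this

lemma line_meas {K : Set E} (hK : MeasurableSet K) (p e : E) :
    MeasurableSet {r : ℝ | p + r • e ∈ K} := by
  have : Measurable fun r : ℝ => p + r • e := by fun_prop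
  exact this hK

/-- the edge of `K` in direction `e`, with an arbitrary weight -/
theorem part_big {K : Set E} (hK : Convex ℝ K) (hKm : MeasurableSet K) {e : E} (he : ‖e‖ = 1)
    {s : ℝ} (hs : 0 ≤ s) {Om A G : E → ℝ≥0∞} (hOm : Measurable Om) (hOi : Inv (Hp e) Om)
    (hA : Measurable A) (hG : Measurable G) (hGi : Inv (Hp e) G)
    (hAG : ∀ x ∈ K, ENNReal.ofReal (gaussianPDFReal 0 1 ⟪e, x⟫) * A x ≤ G x) :
    ∫⁻ x, Om x * (A x * (Cr K e s).indicator 1 x) ∂stdGaussian E
      ≤ ENNReal.ofReal s * ∫⁻ x, Om x * G x ∂stdGaussian E := by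
  have hCm := measurableSet_Cr hKm e s
  have hfm : Measurable fun x => A x * (Cr K e s).indicator 1 x :=
    hA.mul (measurable_one.indicator hCm)
  have hOG : Measurable fun x => Om x * G x := hOm.mul hG
  rw [← lintegral_mul_fib (W := Hp e) hOi hOm hfm, ← lintegral_const_mul _ hOG]
  apply lintegral_mono
  intro x
  have h1 : fib (Hp e) (fun x => A x * (Cr K e s).indicator 1 x) x ≤ ENNReal.ofReal s * G x := by
    rw [fib_line_fun he hfm]
    set p := (Hp e).starProjection x with hp
    set I : Set ℝ := {r | p + r • e ∈ K} with hI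
    have e1 : ∀ r : ℝ, (Cr K e s).indicator (1 : E → ℝ≥0∞) (p + r • e)
        = ({r | r ∈ I ∧ r + s ∉ I}).indicator 1 r := by
      intro r
      have : (p + r • e ∈ Cr K e s) ↔ r ∈ {r | r ∈ I ∧ r + s ∉ I} := by
        simp only [Cr, hI, mem_setOf_eq, add_smul, add_assoc]
      by_cases h : r ∈ {r | r ∈ I ∧ r + s ∉ I}
      · rw [indicator_of_mem h, indicator_of_mem (this.mpr h)]; rfl
      · rw [indicator_of_notMem h, indicator_of_notMem (fun h' => h (this.mp h'))]
    simp_rw [e1]
    apply gauss_edge (line_ord hK p e) (line_meas hKm p e) hs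
      (f := fun r => A (p + r • e)) (by fun_prop)
    intro r hr
    have h2 := hAG _ hr
    have h3 : ⟪e, p + r • e⟫ = r := by
      rw [inner_add_right, inner_smul_right, real_inner_self_eq_norm_sq, he, hp, Hp_unit' he,
        inner_sub_right, inner_smul_right, real_inner_self_eq_norm_sq, he]
      ring
    have h4 : G (p + r • e) = G x := by
      have h5 : p + r • e = x + (r - ⟪e, x⟫) • e := by
        rw [hp, Hp_unit' he, sub_smul]; abel
      rw [h5]
      exact hGi x _ (Submodule.smul_mem _ _ (e_mem_Hp_perp e))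
    rw [h3, h4] at h2
    exact h2
  calc Om x * fib (Hp e) (fun x => A x * (Cr K e s).indicator 1 x) x
      ≤ Om x * (ENNReal.ofReal s * G x) := mul_le_mul' le_rfl h1
    _ = ENNReal.ofReal s * (Om x * G x) := by ring

/-- fibre direction -/
theorem part_fibre {K : Set E} (hK : Convex ℝ K) (hKm : MeasurableSet K) {R : ℝ} (hR : 0 ≤ R)
    (hKR : K ⊆ Metric.closedBall 0 R) {e : E} (he : ‖e‖ = 1)
    {s : ℝ} (hs : 0 ≤ s) (hsR : s * (1 + R) ≤ 1) {W : Submodule ℝ E} (heW : e ∈ Wᗮ) (x : E) :
    fib W ((Cr K e s).indicator 1) x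
      ≤ ENNReal.ofReal (Real.exp 2 * (1 + R) * s) * fib W (Kᶜ.indicator 1) x := by
  have hCm := measurableSet_Cr hKm e s
  have hle := le_Hp heW
  rw [← fib_tower hle (measurable_one.indicator hCm), ← fib_tower hle
    (measurable_one.indicator hKm.compl)]
  have h1 : ∀ y, fib (Hp e) ((Cr K e s).indicator 1) y
      ≤ ENNReal.ofReal (Real.exp 2 * (1 + R) * s) * fib (Hp e) (Kᶜ.indicator 1) y := by
    intro y
    have hne : e ≠ 0 := by rintro rfl; simp at he
    rw [fib_line hne hCm, fib_line hne hKm.compl, he, inv_one, one_smul]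
    set p := (Hp e).starProjection y with hp
    have h2 := gauss_fibre (line_ord hK p e) (line_meas hKm p e) hR hs hsR (by
      intro r hr
      have h3 := hKR hr
      rw [mem_closedBall_zero_iff] at h3
      have h4 : |⟪e, p + r • e⟫| ≤ ‖e‖ * ‖p + r • e‖ := abs_real_inner_le_norm _ _
      have h5 : ⟪e, p + r • e⟫ = r := by
        rw [inner_add_right, inner_smul_right, real_inner_self_eq_norm_sq, he, hp, Hp_unit' he,
          inner_sub_right, inner_smul_right, real_inner_self_eq_norm_sq, he]
        ring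
      rw [h5, he, one_mul] at h4
      linarith)
    refine le_trans (le_of_eq ?_) h2
    congr 1
    ext r
    simp only [Cr, mem_setOf_eq, add_smul, add_assoc]
  calc fib W (fib (Hp e) ((Cr K e s).indicator 1)) x
      ≤ fib W (fun y => ENNReal.ofReal (Real.exp 2 * (1 + R) * s)
        * fib (Hp e) (Kᶜ.indicator 1) y) x := fib_mono h1 x
    _ = _ := by
      rw [fib_mul (inv_const W _) (measurable_fib (measurable_one.indicator hKm.compl))]

/-- the ratio `Delta_e / D`, capped by one -/
noncomputable def rat (W : Submodule ℝ E) (K : Set E) (e : E) (s : ℝ) (x : E) : ℝ≥0∞ :=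
  min 1 (fib W ((Cr K e s).indicator 1) x / fib W (Kᶜ.indicator 1) x)

lemma measurable_rat (W : Submodule ℝ E) {K : Set E} (hKm : MeasurableSet K) (e : E) (s : ℝ) :
    Measurable (rat W K e s) := by
  unfold rat
  exact measurable_const.min ((measurable_fib (measurable_one.indicator
    (measurableSet_Cr hKm e s))).div (measurable_fib (measurable_one.indicator hKm.compl)))

/-- label direction: one line, ratio against the increment of the logarithm of a monotone
function -/
theorem label_line {K : Set E} (hK : Convex ℝ K) (hKm : MeasurableSet K)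
    {e : E} {s a : ℝ} (hs : 0 < s) (ha : 0 < a) {W : Submodule ℝ E} (heW : e ∈ W)
    (haD : ∀ x, ENNReal.ofReal a ≤ fib W (Kᶜ.indicator 1) x) (p : E) :
    ∃ M : ℝ → ℝ, Monotone M ∧ (∀ r, 0 ≤ M r) ∧ (∀ r, M r ≤ 1) ∧
      ∀ r, rat W K e s (p + r • e)
        ≤ ENNReal.ofReal (3 * (Real.log (M (r + s) + a) - Real.log (M r + a))) := by
  set γ := stdGaussian E with hγ
  have hmix : ∀ (r : ℝ) z, mix W (p + r • e) z = mix W p z + r • e := by
    intro r z
    unfold mix
    rw [map_add, map_smul, Submodule.starProjection_eq_self_iff.mpr heW]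
    abel
  set N : ℝ → Set E := fun r => {z | mix W p z + r • e ∉ K ∧ ∃ r' < r, mix W p z + r' • e ∈ K}
    with hN
  have hNm : ∀ r r', r ≤ r' → N r ⊆ N r' := by
    rintro r r' hrr z ⟨h1, q, hq, h2⟩
    refine ⟨fun h3 => h1 ?_, q, by linarith, h2⟩
    exact (line_ord hK (mix W p z) e).out h2 h3 ⟨hq.le, hrr⟩
  have hD : ∀ r : ℝ, fib W (Kᶜ.indicator 1) (p + r • e) = γ {z | mix W p z + r • e ∉ K} := by
    intro r
    rw [fib_indicator W hKm.compl]
    congr 1
    ext z
    have := hmix r z
    unfold mix at this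
    simp only [mem_setOf_eq, mem_compl_iff]
    rw [this]
    rfl
  have hC : ∀ r : ℝ, fib W ((Cr K e s).indicator 1) (p + r • e)
      = γ {z | mix W p z + r • e ∈ K ∧ mix W p z + (r + s) • e ∉ K} := by
    intro r
    rw [fib_indicator W (measurableSet_Cr hKm e s)]
    congr 1
    ext z
    have := hmix r z
    unfold mix at this
    simp only [mem_setOf_eq, Cr]
    rw [this, add_smul, ← add_assoc]
    rfl
  have hCm : ∀ r : ℝ, MeasurableSet {z | mix W p z + r • e ∈ K ∧ mix W p z + (r + s) • e ∉ K} := by
    intro r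
    have h1 : Measurable fun z => mix W p z + r • e := (measurable_mix_right W p).add_const _
    have h2 : Measurable fun z => mix W p z + (r + s) • e := (measurable_mix_right W p).add_const _
    exact (h1 hKm).inter (h2 hKm.compl)
  have hstep : ∀ r : ℝ, γ (N r) + γ {z | mix W p z + r • e ∈ K ∧ mix W p z + (r + s) • e ∉ K}
      ≤ γ (N (r + s)) := by
    intro r
    rw [← measure_union _ (hCm r)]
    · apply measure_mono
      apply union_subset (hNm r _ (by linarith))
      rintro z ⟨h1, h2⟩
      exact ⟨h2, r, by linarith, h1⟩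
    · rw [Set.disjoint_left]
      rintro z ⟨h1, -⟩ ⟨h2, -⟩
      exact h1 h2
  have hfin : ∀ S : Set E, γ S ≠ ⊤ := fun S => measure_ne_top γ S
  refine ⟨fun r => (γ (N r)).toReal, ?_, fun r => ENNReal.toReal_nonneg, ?_, ?_⟩
  · intro r r' h
    exact ENNReal.toReal_mono (hfin _) (measure_mono (hNm r r' h))
  · intro r
    have : γ (N r) ≤ 1 := prob_le_one
    have := ENNReal.toReal_mono ENNReal.one_ne_top this
    simpa using this
  · intro r
    unfold rat
    rw [hC r]
    have hDr := haD (p + r • e)
    rw [hD r] at hDr ⊢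
    set Dr := γ {z | mix W p z + r • e ∉ K} with hDrdef
    set Cv := γ {z | mix W p z + r • e ∈ K ∧ mix W p z + (r + s) • e ∉ K} with hCv
    have hND : γ (N r) ≤ Dr := measure_mono fun z hz => hz.1
    have h1 : (γ (N r)).toReal + Cv.toReal ≤ (γ (N (r + s))).toReal := by
      rw [← ENNReal.toReal_add (hfin _) (hfin _)]
      exact ENNReal.toReal_mono (hfin _) (hstep r)
    have h2 : (γ (N r)).toReal ≤ Dr.toReal := ENNReal.toReal_mono (hfin _) hND
    have h3 : a ≤ Dr.toReal := by
      have := ENNReal.toReal_mono (hfin _) hDr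
      rwa [ENNReal.toReal_ofReal ha.le] at this
    have h4 := min_log (m0 := (γ (N r)).toReal) (m1 := (γ (N (r + s))).toReal)
      ENNReal.toReal_nonneg (ENNReal.toReal_mono (hfin _) (measure_mono (hNm r _ (by linarith))))
      ha h2 h3
    have hDpos : 0 < Dr.toReal := lt_of_lt_of_le ha h3
    calc min 1 (Cv / Dr) = ENNReal.ofReal (min 1 (Cv.toReal / Dr.toReal)) := by
          rw [ENNReal.ofReal_min, ENNReal.ofReal_one, ENNReal.ofReal_div_of_pos hDpos,
            ENNReal.ofReal_toReal (hfin _), ENNReal.ofReal_toReal (hfin _)]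
      _ ≤ ENNReal.ofReal (min 1 (((γ (N (r + s))).toReal - (γ (N r)).toReal) / Dr.toReal)) := by
          apply ENNReal.ofReal_le_ofReal
          apply min_le_min le_rfl
          apply div_le_div_of_nonneg_right _ hDpos.le
          linarith
      _ ≤ _ := ENNReal.ofReal_le_ofReal h4

end Vale.Agent.P262.H706
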