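import Mathlib
import Vale.Agent.P262.H706.Thr

/-!
# P262, milestone 1, block THR-M1, part 3: label directions and the theorem for one direction
-/

set_option linter.all false

open MeasureTheory ProbabilityTheory Set
open scoped ENNReal RealInnerProductSpace

namespace Vale.Agent.P262.H706

open Vale.Agent.P262.H395 Vale.Agent.P262.H59

variable {E : Type*} [NormedAddCommGroup E] [InnerProductSpace ℝ E] [FiniteDimensional ℝ E]
  [MeasurableSpace E] [BorelSpace E]

/-- the zone `D ≤ 1/2` -/
def Zn (W : Submodule ℝ E) (K : Set E) : Set E := {x | fib W (Kᶜ.indicator 1) x ≤ 2⁻¹}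

lemma measurableSet_Zn (W : Submodule ℝ E) {K : Set E} (hKm : MeasurableSet K) :
    MeasurableSet (Zn W K) :=
  measurableSet_le (measurable_fib (measurable_one.indicator hKm.compl)) measurable_const

lemma inv_Zn (W : Submodule ℝ E) (K : Set E) : Inv W ((Zn W K).indicator 1) := by
  intro x w hw
  have h := inv_fib W (Kᶜ.indicator (1 : E → ℝ≥0∞)) x w hw
  have : (x + w ∈ Zn W K) ↔ x ∈ Zn W K := by simp only [Zn, mem_setOf_eq, h]
  by_cases h1 : x ∈ Zn W K
  · rw [indicator_of_mem h1, indicator_of_mem (this.mpr h1)]; rfl
  · rw [indicator_of_notMem h1, indicator_of_notMem (fun h' => h1 (this.mp h'))]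

/-- in the zone half of the fibre is alive -/
lemma half_le {W : Submodule ℝ E} {K : Set E} (hKm : MeasurableSet K) {x : E}
    (hx : x ∈ Zn W K) : 2⁻¹ ≤ fib W (K.indicator 1) x := by
  have h1 := fib_indicator_compl W hKm x
  have h2 : fib W (Kᶜ.indicator 1) x ≤ 2⁻¹ := hx
  by_contra hc
  push Not at hc
  have : fib W (K.indicator 1) x + fib W (Kᶜ.indicator 1) x < 2⁻¹ + 2⁻¹ :=
    ENNReal.add_lt_add_of_lt_of_le (ne_top_of_le_ne_top (by simp) h2) hc h2
  rw [h1, ENNReal.inv_two_add_inv_two] at this
  exact lt_irrefl _ this

/-- label direction -/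
theorem part_label {K : Set E} (hK : Convex ℝ K) (hKm : MeasurableSet K) {R : ℝ} (hR : 0 ≤ R)
    (hKR : K ⊆ Metric.closedBall 0 R) {e : E} (he : ‖e‖ = 1) {s a : ℝ} (hs : 0 < s) (ha : 0 < a)
    {W : Submodule ℝ E} (heW : e ∈ W) (haD : ∀ x, ENNReal.ofReal a ≤ fib W (Kᶜ.indicator 1) x)
    {A G : E → ℝ≥0∞} (hA : Measurable A) (hAi : Inv W A)
    (hG : Measurable G) (hGi : Inv (Hp e) G)
    (hAG : ∀ x ∈ K, ENNReal.ofReal (gaussianPDFReal 0 1 ⟪e, x⟫) * A x ≤ G x) (x : E) :
    fib (Hp e) (fun y => A y * (rat W K e s y * (Zn W K).indicator 1 y)) x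
      ≤ ENNReal.ofReal (6 * s * Real.log ((1 + a) / a)) * fib W G x := by
  have hZm := measurableSet_Zn W hKm
  have hfm : Measurable fun y => A y * (rat W K e s y * (Zn W K).indicator 1 y) :=
    hA.mul ((measurable_rat W hKm e s).mul (measurable_one.indicator hZm))
  rw [fib_line_fun he hfm]
  set p := (Hp e).starProjection x with hp
  have hpe : ⟪e, p⟫ = 0 := by
    rw [hp, Hp_unit' he, inner_sub_right, inner_smul_right, real_inner_self_eq_norm_sq, he]
    ring
  obtain ⟨M, hM, hM0, hM1, hMr⟩ := label_line hK hKm hs ha heW haD p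
  have hlm : Measurable fun r : ℝ => p + r • e := by fun_prop
  rw [lint_gauss (f := fun r : ℝ => A (p + r • e) * (rat W K e s (p + r • e)
    * (Zn W K).indicator 1 (p + r • e))) (hfm.comp hlm)]
  -- pointwise bound
  have hpt : ∀ r : ℝ, ENNReal.ofReal (gaussianPDFReal 0 1 r) * (A (p + r • e)
      * (rat W K e s (p + r • e) * (Zn W K).indicator 1 (p + r • e)))
      ≤ (Icc (-R) R).indicator (fun r => (2 * fib W G x) * (ENNReal.ofReal 3
        * ENNReal.ofReal (Real.log (M (r + s) + a) - Real.log (M r + a)))) r := by
    intro r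
    by_cases hr : p + r • e ∈ Zn W K
    · rw [indicator_of_mem hr]
      have hhalf := half_le hKm hr
      have hmix : ∀ z, mix W (p + r • e) z = mix W p z + r • e := by
        intro z
        unfold mix
        rw [map_add, map_smul, Submodule.starProjection_eq_self_iff.mpr heW]
        abel
      have hmi : ∀ z, ⟪e, mix W p z + r • e⟫ = r := by
        intro z
        have h1 : ⟪e, W.starProjection p⟫ = 0 := by
          rw [← Submodule.inner_starProjection_left_eq_right,
            Submodule.starProjection_eq_self_iff.mpr heW, hpe]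
        have h2 : ⟪e, z - W.starProjection z⟫ = 0 := by
          rw [inner_sub_right, ← Submodule.inner_starProjection_left_eq_right,
            Submodule.starProjection_eq_self_iff.mpr heW, sub_self]
        unfold mix
        rw [inner_add_right, inner_add_right, h1, h2, inner_smul_right,
          real_inner_self_eq_norm_sq, he]
        ring
      have hGm : ∀ z, G (mix W x z) = G (mix W p z + r • e) := by
        intro z
        have h5 : mix W x z = (mix W p z + r • e) + (⟪e, x⟫ - r) • e := by
          unfold mix
          have : W.starProjection p = W.starProjection x - ⟪e, x⟫ • e := by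
            rw [hp, Hp_unit' he, map_sub, map_smul, Submodule.starProjection_eq_self_iff.mpr heW]
          rw [this, sub_smul]
          abel
        rw [h5]
        exact hGi _ _ (Submodule.smul_mem _ _ (e_mem_Hp_perp e))
      have hAm : ∀ z, A (mix W p z + r • e) = A (p + r • e) := by
        intro z
        rw [← hmix z]
        exact hAi.mix _ _
      have hKz : ∀ z, K.indicator (1 : E → ℝ≥0∞) (mix W (p + r • e) z)
          * (ENNReal.ofReal (gaussianPDFReal 0 1 r) * A (p + r • e)) ≤ G (mix W x z) := by
        intro z
        rw [hGm z, hmix z]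
        by_cases hz : mix W p z + r • e ∈ K
        · rw [indicator_of_mem hz, Pi.one_apply, one_mul]
          have := hAG _ hz
          rw [hmi z, hAm z] at this
          exact this
        · rw [indicator_of_notMem hz, zero_mul]
          exact zero_le
      have hsup : ENNReal.ofReal (gaussianPDFReal 0 1 r) * A (p + r • e) ≤ 2 * fib W G x := by
        have h1 : fib W (K.indicator 1) (p + r • e)
            * (ENNReal.ofReal (gaussianPDFReal 0 1 r) * A (p + r • e)) ≤ fib W G x := by
          unfold fib
          have hm : Measurable fun z => K.indicator (1 : E → ℝ≥0∞) (mix W (p + r • e) z) :=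
            (measurable_one.indicator hKm).comp (measurable_mix_right W _)
          rw [← lintegral_mul_const _ hm]
          exact lintegral_mono hKz
        calc ENNReal.ofReal (gaussianPDFReal 0 1 r) * A (p + r • e)
            = 2 * (2⁻¹ * (ENNReal.ofReal (gaussianPDFReal 0 1 r) * A (p + r • e))) := by
              rw [← mul_assoc, ENNReal.mul_inv_cancel (by simp) (by simp), one_mul]
          _ ≤ 2 * (fib W (K.indicator 1) (p + r • e)
            * (ENNReal.ofReal (gaussianPDFReal 0 1 r) * A (p + r • e))) :=
              mul_le_mul' le_rfl (mul_le_mul' hhalf le_rfl)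
          _ ≤ 2 * fib W G x := mul_le_mul' le_rfl h1
      have hrI : r ∈ Icc (-R) R := by
        have hpos : fib W (K.indicator (1 : E → ℝ≥0∞)) (p + r • e) ≠ 0 := by
          intro h0
          rw [h0] at hhalf
          simp at hhalf
        have hex : ∃ z, mix W p z + r • e ∈ K := by
          by_contra hne
          push Not at hne
          apply hpos
          unfold fib
          simp_rw [hmix, indicator_of_notMem (hne _)]
          simp
        obtain ⟨z, hz⟩ := hex
        have h3 := hKR hz
        rw [mem_closedBall_zero_iff] at h3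
        have h4 : |⟪e, mix W p z + r • e⟫| ≤ ‖e‖ * ‖mix W p z + r • e‖ :=
          abs_real_inner_le_norm _ _
        rw [hmi z, he, one_mul] at h4
        exact abs_le.mp (h4.trans h3)
      rw [indicator_of_mem hrI, Pi.one_apply, mul_one, ← mul_assoc]
      refine mul_le_mul' hsup ?_
      refine (hMr r).trans (le_of_eq ?_)
      rw [ENNReal.ofReal_mul (by norm_num)]
    · rw [indicator_of_notMem hr, mul_zero, mul_zero, mul_zero]
      exact zero_le
  refine (lintegral_mono hpt).trans ?_
  rw [lintegral_indicator measurableSet_Icc]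
  have hLm : Measurable fun r : ℝ => Real.log (M (r + s) + a) - Real.log (M r + a) := by
    have h1 := hM.measurable
    have h2 : Measurable fun r : ℝ => M (r + s) := h1.comp (measurable_id.add_const s)
    exact ((Real.measurable_log.comp (h2.add_const a))).sub
      (Real.measurable_log.comp (h1.add_const a))
  have hm1 : Measurable fun r : ℝ => ENNReal.ofReal 3
      * ENNReal.ofReal (Real.log (M (r + s) + a) - Real.log (M r + a)) :=
    hLm.ennreal_ofReal.const_mul _
  rw [lintegral_const_mul _ hm1, lintegral_const_mul _ hLm.ennreal_ofReal]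
  calc 2 * fib W G x * (ENNReal.ofReal 3 * ∫⁻ r in Icc (-R) R,
        ENNReal.ofReal (Real.log (M (r + s) + a) - Real.log (M r + a)))
      ≤ 2 * fib W G x * (ENNReal.ofReal 3 * ENNReal.ofReal (s * Real.log ((1 + a) / a))) :=
        mul_le_mul' le_rfl (mul_le_mul' le_rfl (tel hM hM0 hM1 ha hR hs.le))
    _ = ENNReal.ofReal (6 * s * Real.log ((1 + a) / a)) * fib W G x := by
        have : ENNReal.ofReal (6 * s * Real.log ((1 + a) / a))
            = 2 * (ENNReal.ofReal 3 * ENNReal.ofReal (s * Real.log ((1 + a) / a))) := by
          rw [← ENNReal.ofReal_mul (by norm_num)]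
          have h2 : (2 : ℝ≥0∞) = ENNReal.ofReal 2 := by simp
          rw [h2, ← ENNReal.ofReal_mul (by norm_num)]
          congr 1
          ring
        rw [this]
        ring

/-- **one direction** -/
theorem one_dir {K : Set E} (hK : Convex ℝ K) (hKm : MeasurableSet K) {R : ℝ} (hR : 0 ≤ R)
    (hKR : K ⊆ Metric.closedBall 0 R) {e : E} (he : ‖e‖ = 1) {s a : ℝ} (hs : 0 < s)
    (hsR : s * (1 + R) ≤ 1) (ha : 0 < a) {W' W : Submodule ℝ E} (hW : W' ≤ W) (he' : e ∈ W'ᗮ)
    (hcase : e ∈ W ∨ e ∈ Wᗮ) (haD : ∀ x, ENNReal.ofReal a ≤ fib W (Kᶜ.indicator 1) x)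
    {Om A G : E → ℝ≥0∞} (hOm : Measurable Om) (hOi : Inv W' Om)
    (hA : Measurable A) (hAi : Inv W A) (hG : Measurable G) (hGi : Inv (Hp e) G)
    (hAG : ∀ x ∈ K, ENNReal.ofReal (gaussianPDFReal 0 1 ⟪e, x⟫) * A x ≤ G x) :
    ∫⁻ x, Om x * (A x * rat W K e s x) ∂stdGaussian E
      ≤ ENNReal.ofReal (s * (2 + 6 * Real.log ((1 + a) / a))) * ∫⁻ x, Om x * G x ∂stdGaussian E
        + ENNReal.ofReal (2 * (Real.exp 2 * (1 + R) * s))
          * ∫⁻ x, Om x * (A x * K.indicator 1 x) ∂stdGaussian E := by
  have hOiW : Inv W Om := hOi.mono hW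
  have hOie : Inv (Hp e) Om := hOi.mono (le_Hp he')
  have hZm := measurableSet_Zn W hKm
  have hCm := measurableSet_Cr hKm e s
  have hrm := measurable_rat W hKm e s
  have hZi : Measurable ((Zn W K).indicator (1 : E → ℝ≥0∞)) := measurable_one.indicator hZm
  have hCi : Measurable ((Cr K e s).indicator (1 : E → ℝ≥0∞)) := measurable_one.indicator hCm
  have hKi : Measurable (K.indicator (1 : E → ℝ≥0∞)) := measurable_one.indicator hKm
  have hlog : 0 ≤ Real.log ((1 + a) / a) := by
    apply Real.log_nonneg
    rw [le_div_iff₀ ha]; linarith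
  -- split
  have hsplit : ∀ x, A x * rat W K e s x
      ≤ 2 * (A x * fib W ((Cr K e s).indicator 1) x)
        + A x * (rat W K e s x * (Zn W K).indicator 1 x) := by
    intro x
    by_cases hx : x ∈ Zn W K
    · rw [indicator_of_mem hx, Pi.one_apply, mul_one]
      exact le_add_self
    · have hD : 2⁻¹ ≤ fib W (Kᶜ.indicator 1) x := (not_le.mp hx).le
      have h1 : rat W K e s x ≤ 2 * fib W ((Cr K e s).indicator 1) x := by
        unfold rat
        refine (min_le_right _ _).trans ?_
        rw [div_eq_mul_inv, mul_comm]
        apply mul_le_mul' _ le_rfl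
        rw [← inv_inv (2 : ℝ≥0∞)]
        exact ENNReal.inv_le_inv.mpr hD
      calc A x * rat W K e s x ≤ A x * (2 * fib W ((Cr K e s).indicator 1) x) :=
            mul_le_mul' le_rfl h1
        _ = 2 * (A x * fib W ((Cr K e s).indicator 1) x) := by ring
        _ ≤ _ := le_self_add
  -- the part with D ≥ 1/2
  have hbig : ∫⁻ x, Om x * (A x * fib W ((Cr K e s).indicator 1) x) ∂stdGaussian E
      ≤ ENNReal.ofReal s * ∫⁻ x, Om x * G x ∂stdGaussian E := by
    have h1 : ∫⁻ x, Om x * (A x * fib W ((Cr K e s).indicator 1) x) ∂stdGaussian E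
        = ∫⁻ x, Om x * (A x * (Cr K e s).indicator 1 x) ∂stdGaussian E := by
      have h2 := lintegral_mul_fib (W := W) (f := (Cr K e s).indicator 1)
        (g := fun x => Om x * A x) (hOiW.mul hAi) (hOm.mul hA) hCi
      simp only [mul_assoc] at h2
      exact h2
    rw [h1]
    exact part_big hK hKm he hs.le hOm hOie hA hG hGi hAG
  -- the zone
  have hzone : ∫⁻ x, Om x * (A x * (rat W K e s x * (Zn W K).indicator 1 x)) ∂stdGaussian E
      ≤ ENNReal.ofReal (6 * s * Real.log ((1 + a) / a)) * ∫⁻ x, Om x * G x ∂stdGaussian E
        + ENNReal.ofReal (2 * (Real.exp 2 * (1 + R) * s))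
          * ∫⁻ x, Om x * (A x * K.indicator 1 x) ∂stdGaussian E := by
    rcases hcase with heW | heW
    · refine le_trans ?_ le_self_add
      have hfm : Measurable fun y => A y * (rat W K e s y * (Zn W K).indicator 1 y) :=
        hA.mul (hrm.mul hZi)
      rw [← lintegral_mul_fib (W := Hp e) hOie hOm hfm]
      calc ∫⁻ x, Om x * fib (Hp e) (fun y => A y * (rat W K e s y * (Zn W K).indicator 1 y)) x
            ∂stdGaussian E
          ≤ ∫⁻ x, ENNReal.ofReal (6 * s * Real.log ((1 + a) / a)) * (Om x * fib W G x)
            ∂stdGaussian E := by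
            apply lintegral_mono
            intro x
            have := part_label hK hKm hR hKR he hs ha heW haD hA hAi hG hGi hAG x
            calc Om x * fib (Hp e)
                  (fun y => A y * (rat W K e s y * (Zn W K).indicator 1 y)) x
                ≤ Om x * (ENNReal.ofReal (6 * s * Real.log ((1 + a) / a)) * fib W G x) :=
                  mul_le_mul' le_rfl this
              _ = _ := by ring
        _ = ENNReal.ofReal (6 * s * Real.log ((1 + a) / a))
            * ∫⁻ x, Om x * G x ∂stdGaussian E := by
            have hOG : Measurable fun x => Om x * fib W G x := hOm.mul (measurable_fib hG)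
            rw [lintegral_const_mul _ hOG, lintegral_mul_fib hOiW hOm hG]
    · refine le_trans ?_ le_add_self
      have hpt : ∀ x, A x * (rat W K e s x * (Zn W K).indicator 1 x)
          ≤ ENNReal.ofReal (2 * (Real.exp 2 * (1 + R) * s)) * (A x * fib W (K.indicator 1) x) := by
        intro x
        by_cases hx : x ∈ Zn W K
        · rw [indicator_of_mem hx, Pi.one_apply, mul_one]
          have h1 : rat W K e s x ≤ ENNReal.ofReal (Real.exp 2 * (1 + R) * s) := by
            unfold rat
            refine (min_le_right _ _).trans ?_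
            have hD0 : fib W (Kᶜ.indicator 1) x ≠ 0 := by
              intro h0
              have := haD x
              rw [h0] at this
              simp only [nonpos_iff_eq_zero, ENNReal.ofReal_eq_zero] at this
              linarith
            have hDt : fib W (Kᶜ.indicator 1) x ≠ ⊤ :=
              ne_top_of_le_ne_top ENNReal.one_ne_top (fib_le_one (fun y => by
                by_cases hy : y ∈ Kᶜ
                · rw [indicator_of_mem hy]; rfl
                · rw [indicator_of_notMem hy]; exact zero_le) x)
            exact ENNReal.div_le_of_le_mul (part_fibre hK hKm hR hKR he hs.le hsR heW x)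
          have h2 := half_le hKm hx
          calc A x * rat W K e s x
              ≤ A x * ENNReal.ofReal (Real.exp 2 * (1 + R) * s) := mul_le_mul' le_rfl h1
            _ = ENNReal.ofReal (2 * (Real.exp 2 * (1 + R) * s)) * (A x * 2⁻¹) := by
                have h3 : ENNReal.ofReal (2 * (Real.exp 2 * (1 + R) * s))
                    = 2 * ENNReal.ofReal (Real.exp 2 * (1 + R) * s) := by
                  rw [ENNReal.ofReal_mul (by norm_num)]
                  simp
                rw [h3]
                calc A x * ENNReal.ofReal (Real.exp 2 * (1 + R) * s)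
                    = (2 * 2⁻¹) * (A x * ENNReal.ofReal (Real.exp 2 * (1 + R) * s)) := by
                      rw [ENNReal.mul_inv_cancel (by simp) (by simp), one_mul]
                  _ = _ := by ring
            _ ≤ _ := mul_le_mul' le_rfl (mul_le_mul' le_rfl h2)
        · rw [indicator_of_notMem hx, mul_zero, mul_zero]
          exact zero_le
      calc ∫⁻ x, Om x * (A x * (rat W K e s x * (Zn W K).indicator 1 x)) ∂stdGaussian E
          ≤ ∫⁻ x, ENNReal.ofReal (2 * (Real.exp 2 * (1 + R) * s))
            * (Om x * (A x * fib W (K.indicator 1) x)) ∂stdGaussian E := by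
            apply lintegral_mono
            intro x
            calc Om x * (A x * (rat W K e s x * (Zn W K).indicator 1 x))
                ≤ Om x * (ENNReal.ofReal (2 * (Real.exp 2 * (1 + R) * s))
                  * (A x * fib W (K.indicator 1) x)) := mul_le_mul' le_rfl (hpt x)
              _ = _ := by ring
        _ = _ := by
            have hm : Measurable fun x => Om x * (A x * fib W (K.indicator 1) x) :=
              hOm.mul (hA.mul (measurable_fib hKi))
            rw [lintegral_const_mul _ hm]
            congr 1
            have h2 := lintegral_mul_fib (W := W) (f := K.indicator 1)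
              (g := fun x => Om x * A x) (hOiW.mul hAi) (hOm.mul hA) hKi
            simp only [mul_assoc] at h2
            exact h2
  calc ∫⁻ x, Om x * (A x * rat W K e s x) ∂stdGaussian E
      ≤ ∫⁻ x, (2 * (Om x * (A x * fib W ((Cr K e s).indicator 1) x))
        + Om x * (A x * (rat W K e s x * (Zn W K).indicator 1 x))) ∂stdGaussian E := by
        apply lintegral_mono
        intro x
        calc Om x * (A x * rat W K e s x)
            ≤ Om x * (2 * (A x * fib W ((Cr K e s).indicator 1) x)
              + A x * (rat W K e s x * (Zn W K).indicator 1 x)) := mul_le_mul' le_rfl (hsplit x)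
          _ = _ := by ring
    _ = 2 * ∫⁻ x, Om x * (A x * fib W ((Cr K e s).indicator 1) x) ∂stdGaussian E
        + ∫⁻ x, Om x * (A x * (rat W K e s x * (Zn W K).indicator 1 x)) ∂stdGaussian E := by
        have hm1 : Measurable fun x => Om x * (A x * fib W ((Cr K e s).indicator 1) x) :=
          hOm.mul (hA.mul (measurable_fib hCi))
        rw [lintegral_add_left (hm1.const_mul 2), lintegral_const_mul _ hm1]
    _ ≤ 2 * (ENNReal.ofReal s * ∫⁻ x, Om x * G x ∂stdGaussian E)
        + (ENNReal.ofReal (6 * s * Real.log ((1 + a) / a)) * ∫⁻ x, Om x * G x ∂stdGaussian E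
        + ENNReal.ofReal (2 * (Real.exp 2 * (1 + R) * s))
          * ∫⁻ x, Om x * (A x * K.indicator 1 x) ∂stdGaussian E) :=
        add_le_add (mul_le_mul' le_rfl hbig) hzone
    _ = _ := by
        have h3 : ENNReal.ofReal (s * (2 + 6 * Real.log ((1 + a) / a)))
            = 2 * ENNReal.ofReal s + ENNReal.ofReal (6 * s * Real.log ((1 + a) / a)) := by
          have h2 : (2 : ℝ≥0∞) = ENNReal.ofReal 2 := by simp
          rw [h2, ← ENNReal.ofReal_mul (by norm_num), ← ENNReal.ofReal_add (by positivity)
            (by positivity)]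
          congr 1
          ring
        rw [h3]
        ring

end Vale.Agent.P262.H706
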