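import Vale.Agent.P262.H118.RotB
import Vale.Agent.P262.H716.Base2
import Vale.Agent.P262.H962.Chain
import Vale.Agent.P262.H998.LaySum2

/-!
# P262, milestone 2, THR: the direction `θ` of a rotation, sum over the layers

`gTaL a` = payoff of the layer `a` of `|⟪b q, ·⟫|`, `gTL` = sum over the layers (118's `RotB.split`).
-/

set_option linter.all false

open MeasureTheory ProbabilityTheory Set
open scoped ENNReal RealInnerProductSpace
open Vale.Agent.P262.H395 (fib mix Inv inv_fib measurable_fib fib_mono)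
open Vale.Agent.P262.H118 (ly0 lyd ly1 la sg ON measurableSet_la la_add measurableSet_lyd)
open Vale.Agent.P262.H711 (Fam tau measurable_tau)
open Vale.Agent.P262.H998 (pp)

namespace Vale.Agent.P262.H706

variable {E : Type*} [NormedAddCommGroup E] [InnerProductSpace ℝ E] [FiniteDimensional ℝ E]
  [MeasurableSpace E] [BorelSpace E]

variable {ι : Type*} {F : Fam E ι} {Ok : ι → Prop} {N : ℕ}

lemma fib_tsum' {κ : Type*} [Countable κ] {W : Submodule ℝ E} {f : κ → E → ℝ≥0∞}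
    (hf : ∀ i, Measurable (f i)) (x : E) :
    fib W (fun y => ∑' i, f i y) x = ∑' i, fib W (f i) x := by
  unfold Vale.Agent.P262.H395.fib
  exact lintegral_tsum fun i => ((hf i).comp (H395.measurable_mix_right _ _)).aemeasurable

/-- countable sums of payoffs -/
theorem tau_tsum (hF : F.Str Ok N) {κ : Type*} [Countable κ] {g : κ → ι → E → ℝ≥0∞}
    (hg : ∀ i r, Measurable (g i r)) : ∀ n r x,
    tau F (fun r x => ∑' i, g i r x) n r x = ∑' i, tau F (g i) n r x := by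
  intro n
  induction n with
  | zero => exact fun r x => rfl
  | succ n ih =>
    intro r x
    by_cases hL : F.L r
    · rw [H962.tau_leaf _ _ hL]
      have : ∀ i, tau F (g i) (n + 1) r x = 0 := fun i => H962.tau_leaf _ _ hL x
      simp_rw [this]
      simp
    · rw [H962.tau_succ _ _ hL]
      have : ∀ i, tau F (g i) (n + 1) r x = fib (F.W r) (fun y => F.wt (F.kl r x) r y *
        tau F (g i) n (F.ch (F.kl r x) r) y) x := fun i => H962.tau_succ _ _ hL x
      simp_rw [this, ih, ← ENNReal.tsum_mul_left]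
      exact fib_tsum' (fun i => (hF.wt_meas _ r).mul (measurable_tau hF (hg i) n _)) x

/-- the mass of a layer at a label above which `b` lives -/
lemma fib_la_le {W : Submodule ℝ E} {b : E} (hb : ‖b‖ = 1) (hbW : b ∈ Wᗮ) (a : ℕ) (x : E) :
    fib W ((la b a).indicator 1) x ≤ pp a := by
  have h1 : fib W ((la b a).indicator 1) x ≤
      fib W ({y : E | ⟪b, y⟫ ∈ {t : ℝ | (2 : ℝ) ^ a ≤ 1 + |t|}}.indicator 1) x := by
    refine fib_mono (fun y => ?_) x
    refine indicator_le_indicator_of_subset ?_ (fun _ => zero_le) y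
    intro z hz
    exact hz.1
  refine h1.trans (le_of_eq ?_)
  refine H837.fib_inner hbW hb ?_ x
  have h : Continuous fun t : ℝ => 1 + |t| := by fun_prop
  exact measurableSet_le measurable_const h.measurable

end Vale.Agent.P262.H706

namespace Vale.Agent.P262.M2.Sys

open Vale.Agent.P262.H706 (tau_tsum fib_tsum' fib_la_le)

variable {E : Type*} [NormedAddCommGroup E] [InnerProductSpace ℝ E] [FiniteDimensional ℝ E]
  [MeasurableSpace E] [BorelSpace E] {S : Sys E} {m : ℕ} {q : List ℕ} {θ : E} {b : List ℕ → E}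

variable (S) in
/-- payoff of the layer `a`, role `o`, sign `ε` -/
noncomputable def gTaL (m : ℕ) (q : List ℕ) (θ : E) (b : List ℕ → E) (o : Bool) (ε : ℝ) (a : ℕ)
    (r : List ℕ) (y : E) : ℝ≥0∞ :=
  S.mu q (lyd (S.bd q m o) (S.bd q m (!o)) (la (b q) a) (ε • θ) (4 * S.mv.ph m * 2 ^ a)) r m y /
    S.Dc r m y ^ S.th

variable (S) in
/-- payoff of the direction `θ` -/
noncomputable def gTL (m : ℕ) (q : List ℕ) (θ : E) (b : List ℕ → E) (o : Bool) (ε : ℝ)
    (r : List ℕ) (y : E) : ℝ≥0∞ :=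
  (∑' a : ℕ, S.mu q (lyd (S.bd q m o) (S.bd q m (!o)) (la (b q) a) (ε • θ)
    (4 * S.mv.ph m * 2 ^ a)) r m y) / S.Dc r m y ^ S.th

lemma gTL_eq (m : ℕ) (q : List ℕ) (θ : E) (b : List ℕ → E) (o : Bool) (ε : ℝ) (r : List ℕ) (y : E) :
    S.gTL m q θ b o ε r y = ∑' a, S.gTaL m q θ b o ε a r y := by
  unfold gTL gTaL
  simp_rw [div_eq_mul_inv]
  rw [ENNReal.tsum_mul_right]

lemma measurableSet_lyT (o : Bool) (ε : ℝ) (a : ℕ) : MeasurableSet
    (lyd (S.bd q m o) (S.bd q m (!o)) (la (b q) a) (ε • θ) (4 * S.mv.ph m * 2 ^ a)) :=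
  measurableSet_lyd (measurableSet_bd _ _ _) (measurableSet_bd _ _ _) (measurableSet_la _ _) _ _

lemma gTaL_meas (o : Bool) (ε : ℝ) (a : ℕ) (r : List ℕ) : Measurable (S.gTaL m q θ b o ε a r) := by
  unfold gTaL
  exact (mu_meas (measurableSet_lyT o ε a)).div ((S.Dc_meas r m).pow_const _)

lemma gTL_meas (o : Bool) (ε : ℝ) (r : List ℕ) : Measurable (S.gTL m q θ b o ε r) := by
  have : S.gTL m q θ b o ε r = fun y => ∑' a, S.gTaL m q θ b o ε a r y := by
    funext y; exact gTL_eq m q θ b o ε r y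
  rw [this]
  exact Measurable.ennreal_tsum fun a => gTaL_meas o ε a r

/-- the layer in the coordinates of `r` -/
lemma gTaL_eq_gB (hm : S.mv.IsRot m) (hq : S.mv.jj m = q) (hθ : θ ∈ S.W q m) {r : List ℕ}
    (hr : q <:+ r) (o : Bool) (ε : ℝ) (a : ℕ) (y : E) :
    S.gTaL m q θ b o ε a r y = S.gB m o (fun r => S.tr q r m ⁻¹' la (b q) a) (ε • θ)
      (4 * S.mv.ph m * 2 ^ a) r y := by
  unfold gTaL gB mu
  rw [tr_lyd_bd hm (hq ▸ List.suffix_refl _) hr (Submodule.smul_mem _ _ hθ)]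
  cases o <;> rfl

/-- **base inequality** for the layer payoff -/
theorem gTaL_base (H : S.RotB m q θ b) (hm : S.mv.IsRot m) (hq : S.mv.jj m = q) {r : List ℕ}
    (hr : q <:+ r) (o : Bool) (ε : ℝ) (a : ℕ) {al be : ℝ} (hal : 0 ≤ al) (hbe : 0 ≤ be)
    (hab : al + be = 1 - S.th) (x : E) (J : ℕ) :
    ∑ j ∈ Finset.range (J + 1), S.gTaL m q θ b o ε a r
        (x + ((j : ℝ) * (4 * S.mv.ph m * 2 ^ a)) • (ε • θ)) ≤
      ENNReal.ofReal (1 / (1 - S.th)) *
        (S.Dc r m (x + ((J : ℝ) * (4 * S.mv.ph m * 2 ^ a)) • (ε • θ)) ^ al *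
          S.mu q (la (b q) a) r m x ^ be) := by
  have hph := S.mv.ph_nonneg m
  have hθ := H.mem
  simp_rw [gTaL_eq_gB hm hq hθ hr o ε a]
  have hbθ : ⟪b q, ε • θ⟫ = 0 := by
    rw [inner_smul_right, real_inner_comm, H.inner_θ_b (List.suffix_refl _), mul_zero]
  exact S.base_run (Or.inr hm) o (L := fun r => S.tr q r m ⁻¹' la (b q) a)
    (measurableSet_tr (measurableSet_la _ _))
    (Submodule.smul_mem _ _ (S.W_mono hr m hθ))
    (tr_layer hr (Submodule.smul_mem _ _ hθ) (la_add hbθ)) (by positivity) hal hbe hab x J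

/-- **the sum over the layers**: from (DIR) for one layer, both Hölder pairs, to the direction `θ` -/
theorem theta_sum_L {F : Fam E (List ℕ)} {Ok : List ℕ → Prop} {N : ℕ} (hF : F.Str Ok N)
    (H : S.RotB m q θ b) {p0 : List ℕ} (hp0 : p0 <:+ q) (o : Bool) (ε : ℝ) (n : ℕ)
    {w : E → ℝ≥0∞} (hw : Measurable w) {x : E} {c : ℕ} {Y K0 : ℝ≥0∞} {CD : ℝ} (hCD : 0 ≤ CD)
    (hY : S.thr c ≤ Y) (hYt : Y ≠ ⊤)
    (h1 : ∀ a, fib (S.W p0 m) (fun y => w y * tau F (S.gTaL m q θ b o ε a) n q y) x ≤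
      ENNReal.ofReal (CD * (4 * S.mv.ph m * 2 ^ a)) * K0 * Y ^ (1 / 2 : ℝ))
    (h2 : ∀ a, fib (S.W p0 m) (fun y => w y * tau F (S.gTaL m q θ b o ε a) n q y) x ≤
      ENNReal.ofReal (CD * (4 * S.mv.ph m * 2 ^ a)) * K0 * (Y ^ (1 / 4 : ℝ) *
        fib (S.W p0 m) ((la (b q) a).indicator 1) x ^ (1 / 4 : ℝ))) :
    fib (S.W p0 m) (fun y => w y * tau F (S.gTL m q θ b o ε) n q y) x ≤
      ENNReal.ofReal (560 * CD * S.mv.ph m) * K0 * (2 ^ c * Y ^ (1 / 2 : ℝ)) := by
  have hph := S.mv.ph_nonneg m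
  have e0 : (S.gTL m q θ b o ε) = fun r x => ∑' a, S.gTaL m q θ b o ε a r x := by
    funext r y; exact gTL_eq m q θ b o ε r y
  have e1 : (fun y => w y * tau F (S.gTL m q θ b o ε) n q y) =
      fun y => ∑' a, w y * tau F (S.gTaL m q θ b o ε a) n q y := by
    funext y
    rw [e0, tau_tsum hF (fun a r => gTaL_meas o ε a r), ENNReal.tsum_mul_left]
  rw [e1, fib_tsum' (f := fun a y => w y * tau F (S.gTaL m q θ b o ε a) n q y)
    (fun a => hw.mul (measurable_tau hF (fun r => gTaL_meas o ε a r) n q))]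
  have hb1 : ‖b q‖ = 1 := H.norm_b (List.suffix_refl _)
  have hbp : b q ∈ (S.W p0 m)ᗮ :=
    Submodule.orthogonal_le (S.W_mono hp0 m) (H.bperp q (List.suffix_refl _))
  set P : ℝ≥0∞ := ENNReal.ofReal (4 * CD * S.mv.ph m) * K0 with hP
  have h3 : ∀ a, fib (S.W p0 m) (fun y => w y * tau F (S.gTaL m q θ b o ε a) n q y) x ≤
      P * ((2 : ℝ≥0∞) ^ a * min (Y ^ (1 / 2 : ℝ)) (Y ^ (1 / 4 : ℝ) * pp a ^ (1 / 4 : ℝ))) := by
    intro a
    have e2 : ENNReal.ofReal (CD * (4 * S.mv.ph m * 2 ^ a)) * K0 = P * 2 ^ a := by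
      rw [hP, show CD * (4 * S.mv.ph m * 2 ^ a) = (4 * CD * S.mv.ph m) * 2 ^ a from by ring,
        ENNReal.ofReal_mul (by positivity), ENNReal.ofReal_pow (by norm_num),
        ENNReal.ofReal_ofNat]
      ring
    have h4 := h1 a
    have h5 := h2 a
    rw [e2] at h4 h5
    rw [← mul_assoc]
    rcases le_total (Y ^ (1 / 2 : ℝ)) (Y ^ (1 / 4 : ℝ) * pp a ^ (1 / 4 : ℝ)) with h6 | h6
    · rw [min_eq_left h6]; exact h4
    · rw [min_eq_right h6]
      refine h5.trans ?_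
      gcongr
      exact fib_la_le hb1 hbp a x
  refine (ENNReal.tsum_le_tsum h3).trans ?_
  rw [ENNReal.tsum_mul_left]
  have hY' : ENNReal.ofReal (H941.thr c) ≤ Y := by
    rw [S.hthr] at hY
    exact hY
  calc P * ∑' a : ℕ, (2 : ℝ≥0∞) ^ a * min (Y ^ (1 / 2 : ℝ)) (Y ^ (1 / 4 : ℝ) * pp a ^ (1 / 4 : ℝ))
      ≤ P * (ENNReal.ofReal (140 * 2 ^ c) * Y ^ (1 / 2 : ℝ)) :=
        mul_le_mul_right (H998.layer_sum_quarter hY' hYt) _
    _ = _ := by
        rw [hP, show 560 * CD * S.mv.ph m = (4 * CD * S.mv.ph m) * 140 from by ring,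
          ENNReal.ofReal_mul (by positivity : 0 ≤ 4 * CD * S.mv.ph m),
          ENNReal.ofReal_mul (by norm_num : (0 : ℝ) ≤ 140), ENNReal.ofReal_pow (by norm_num),
          ENNReal.ofReal_ofNat (n := 2)]
        ring

end Vale.Agent.P262.M2.Sys
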