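import Mathlib
import Vale.Agent.P262.H706.Thr2

/-!
# P262, milestone 1, block THR-M1: the theorem

`thr` : the throughput `X = A Δ / D` of a change `K → K'` of the body, seen at the labels
of `W` and averaged over everything (`Om` = weight depending on the labels of `W' ≤ W` only), is
at most `C √n η (1+R)^2` times the line suprema `G k` plus the alive mass.
`thr_isometry` : the same for `K' = ρ '' K`, `ρ` a linear isometry fixing `W'` pointwise.
-/

set_option linter.all false

open MeasureTheory ProbabilityTheory Set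
open scoped ENNReal RealInnerProductSpace

namespace Vale.Agent.P262.H706

open Vale.Agent.P262.H395 Vale.Agent.P262.H59

variable {E : Type*} [NormedAddCommGroup E] [InnerProductSpace ℝ E] [FiniteDimensional ℝ E]
  [MeasurableSpace E] [BorelSpace E]

omit [FiniteDimensional ℝ E] [MeasurableSpace E] [BorelSpace E] in
/-- **cross-polytope trick**: if `K` is convex, `x ∈ K`, `y ∉ K`, then `K` is left within distance
`√m ‖y - x‖` in one of the coordinate directions -/
lemma cross {m : ℕ} {b : Fin m → E} (hb : Orthonormal ℝ b) {K : Set E} (hK : Convex ℝ K) {x y : E}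
    (hx : x ∈ K) (hy : y ∉ K) (hyx : y - x ∈ Submodule.span ℝ (range b)) {s : ℝ}
    (hs : Real.sqrt m * ‖y - x‖ ≤ s) : ∃ k, x ∈ Cr K (b k) s ∨ x ∈ Cr K (-b k) s := by
  by_contra hc
  push Not at hc
  have hin : ∀ k, x + s • b k ∈ K ∧ x + (-s) • b k ∈ K := by
    intro k
    obtain ⟨h1, h2⟩ := hc k
    simp only [Cr, mem_setOf_eq, not_and, not_not] at h1 h2
    refine ⟨h1 hx, ?_⟩
    have := h2 hx
    rwa [smul_neg, ← neg_smul] at this
  obtain ⟨c, hsum⟩ := (Submodule.mem_span_range_iff_exists_fun ℝ).mp hyx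
  have hnorm : ‖y - x‖ ^ 2 = ∑ k, c k ^ 2 := by
    rw [← real_inner_self_eq_norm_sq, ← hsum, hb.inner_sum]
    apply Finset.sum_congr rfl
    intro k _
    simp [pow_two]
  have hcs : (∑ k, |c k|) ≤ s := by
    have h1 : (∑ k, |c k|) ^ 2 ≤ (m : ℝ) * ∑ k, c k ^ 2 := by
      have := sq_sum_le_card_mul_sum_sq (s := (Finset.univ : Finset (Fin m))) (f := fun k => |c k|)
      simpa [sq_abs] using this
    have h2 : (∑ k, |c k|) ^ 2 ≤ (Real.sqrt m * ‖y - x‖) ^ 2 := by
      rw [mul_pow, Real.sq_sqrt (Nat.cast_nonneg m), hnorm]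
      exact h1
    exact (abs_le_of_sq_le_sq' h2 (by positivity)).2.trans hs
  have hs0 : 0 ≤ s := le_trans (by positivity) hs
  rcases hs0.eq_or_lt with h0 | h0
  · have h1 : ∀ k, c k = 0 := by
      intro k
      have h2 : |c k| ≤ ∑ j, |c j| :=
        Finset.single_le_sum (f := fun j => |c j|) (fun j _ => abs_nonneg _) (Finset.mem_univ k)
      have h3 : |c k| ≤ 0 := by linarith
      exact abs_eq_zero.mp (le_antisymm h3 (abs_nonneg _))
    apply hy
    have : y - x = 0 := by rw [← hsum]; simp [h1]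
    rw [sub_eq_zero] at this
    rw [this]; exact hx
  · apply hy
    let w : Option (Fin m) → ℝ := fun o => o.elim (1 - ∑ k, |c k| / s) fun k => |c k| / s
    let z : Option (Fin m) → E := fun o => o.elim x fun k =>
      if 0 ≤ c k then x + s • b k else x + (-s) • b k
    have hT : ∑ k, |c k| / s ≤ 1 := by
      rw [← Finset.sum_div, div_le_one h0]
      exact hcs
    have hmem : ∑ o, w o • z o ∈ K := by
      apply hK.sum_mem
      · rintro (_ | k) -
        · simp only [w, Option.elim]; linarith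
        · simp only [w, Option.elim]; positivity
      · rw [Fintype.sum_option]
        simp only [w, Option.elim]
        ring
      · rintro (_ | k) -
        · exact hx
        · simp only [z, Option.elim]
          split_ifs
          · exact (hin k).1
          · exact (hin k).2
    have heq : ∑ o, w o • z o = y := by
      rw [Fintype.sum_option]
      simp only [w, z, Option.elim]
      have h4 : ∀ k, (|c k| / s) • (if 0 ≤ c k then x + s • b k else x + (-s) • b k)
          = (|c k| / s) • x + c k • b k := by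
        intro k
        split_ifs with h
        · rw [smul_add, smul_smul, div_mul_cancel₀ _ h0.ne', abs_of_nonneg h]
        · push Not at h
          rw [smul_add, smul_smul, abs_of_neg h]
          congr 2
          field_simp
      simp_rw [h4]
      rw [Finset.sum_add_distrib, hsum, ← Finset.sum_smul, sub_smul, one_smul]
      abel
    rw [heq] at hmem
    exact hmem

lemma min_one_add (x y : ℝ≥0∞) : min 1 (x + y) ≤ min 1 x + min 1 y := by
  rcases le_total 1 x with h | h
  · exact (min_le_left _ _).trans ((le_min le_rfl h).trans le_self_add)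
  · rcases le_total 1 y with h' | h'
    · exact (min_le_left _ _).trans ((le_min le_rfl h').trans le_add_self)
    · rw [min_eq_right h, min_eq_right h']
      exact min_le_right _ _

lemma min_one_sum {ι : Type*} (t : Finset ι) (f : ι → ℝ≥0∞) :
    min 1 (∑ i ∈ t, f i) ≤ ∑ i ∈ t, min 1 (f i) := by
  classical
  induction t using Finset.induction_on with
  | empty => simp
  | insert i t hi ih =>
    rw [Finset.sum_insert hi, Finset.sum_insert hi]
    exact (min_one_add _ _).trans (add_le_add le_rfl ih)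

lemma fib_sum {ι : Type*} (t : Finset ι) {W : Submodule ℝ E} {f : ι → E → ℝ≥0∞}
    (hf : ∀ i, Measurable (f i)) (x : E) :
    fib W (fun y => ∑ i ∈ t, f i y) x = ∑ i ∈ t, fib W (f i) x := by
  unfold fib
  exact lintegral_finset_sum t fun i _ => (hf i).comp (measurable_mix_right W x)

/-- the throughput of the change `K → K'` at the label of `W` -/
noncomputable def XF (W : Submodule ℝ E) (A : E → ℝ≥0∞) (K K' : Set E) (x : E) : ℝ≥0∞ :=
  A x * (fib W ((symmDiff K K').indicator 1) x / fib W ((K ∩ K')ᶜ.indicator 1) x)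

/-- the same with a cut at the alive mass of `K` -/
noncomputable def XX (W : Submodule ℝ E) (A : E → ℝ≥0∞) (K K' : Set E) (x : E) : ℝ≥0∞ :=
  A x * min (fib W (K.indicator 1) x)
    (fib W ((symmDiff K K').indicator 1) x / fib W ((K ∩ K')ᶜ.indicator 1) x)

lemma XX_le_XF (W : Submodule ℝ E) (A : E → ℝ≥0∞) (K K' : Set E) (x : E) :
    XX W A K K' x ≤ XF W A K K' x := mul_le_mul' le_rfl (min_le_right _ _)

/-- `Δ ≤ D` -/
lemma delta_le (W : Submodule ℝ E) (K K' : Set E) (x : E) :
    fib W ((symmDiff K K').indicator 1) x ≤ fib W ((K ∩ K')ᶜ.indicator 1) x := by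
  apply fib_mono
  intro y
  apply indicator_le_indicator_of_subset _ (fun _ => zero_le)
  rintro z (⟨h1, h2⟩ | ⟨h1, h2⟩)
  · exact fun h => h2 h.2
  · exact fun h => h2 h.1

lemma Hp_neg (e : E) : Hp (-e) = Hp e := by
  unfold Hp
  ext y
  rw [Submodule.mem_orthogonal_singleton_iff_inner_right,
    Submodule.mem_orthogonal_singleton_iff_inner_right, inner_neg_left, neg_eq_zero]

lemma ind_le_one (S : Set E) (y : E) : S.indicator (1 : E → ℝ≥0∞) y ≤ 1 := by
  by_cases hy : y ∈ S
  · rw [indicator_of_mem hy]; rfl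
  · rw [indicator_of_notMem hy]; exact zero_le

/-- pointwise bound of the throughput by the ratios of the coordinate directions -/
lemma XF_le {m : ℕ} {b : Fin m → E} {K K' : Set E} (hKm : MeasurableSet K)
    (hKm' : MeasurableSet K') {s : ℝ} {W : Submodule ℝ E} {A : E → ℝ≥0∞}
    (h1 : ∀ x ∈ K, x ∉ K' → ∃ k, x ∈ Cr K (b k) s ∨ x ∈ Cr K (-b k) s)
    (h2 : ∀ x ∈ K', x ∉ K → ∃ k, x ∈ Cr K' (b k) s ∨ x ∈ Cr K' (-b k) s) (x : E) :
    XF W A K K' x ≤ ∑ k, (A x * rat W K (b k) s x + A x * rat W K (-b k) s x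
      + (A x * rat W K' (b k) s x + A x * rat W K' (-b k) s x)) := by
  have hm : ∀ (L : Set E) (hL : MeasurableSet L) (e : E),
      Measurable ((Cr L e s).indicator (1 : E → ℝ≥0∞)) := fun L hL e =>
    measurable_one.indicator (measurableSet_Cr hL e s)
  have hpt : ∀ y, (symmDiff K K').indicator (1 : E → ℝ≥0∞) y
      ≤ ∑ k, ((Cr K (b k) s).indicator 1 y + (Cr K (-b k) s).indicator 1 y
        + ((Cr K' (b k) s).indicator 1 y + (Cr K' (-b k) s).indicator 1 y)) := by
    intro y
    by_cases hy : y ∈ symmDiff K K'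
    · rw [indicator_of_mem hy, Pi.one_apply]
      have hex : ∃ k, 1 ≤ (Cr K (b k) s).indicator (1 : E → ℝ≥0∞) y
          + (Cr K (-b k) s).indicator 1 y
          + ((Cr K' (b k) s).indicator 1 y + (Cr K' (-b k) s).indicator 1 y) := by
        rcases hy with ⟨h3, h4⟩ | ⟨h3, h4⟩
        · obtain ⟨k, h5 | h5⟩ := h1 y h3 h4
          · refine ⟨k, ?_⟩
            rw [indicator_of_mem h5, Pi.one_apply, add_assoc]
            exact le_self_add
          · refine ⟨k, ?_⟩
            rw [indicator_of_mem h5, Pi.one_apply]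
            exact le_add_self.trans le_self_add
        · obtain ⟨k, h5 | h5⟩ := h2 y h3 h4
          · refine ⟨k, ?_⟩
            rw [indicator_of_mem h5 (s := Cr K' (b k) s), Pi.one_apply]
            exact le_self_add.trans le_add_self
          · refine ⟨k, ?_⟩
            rw [indicator_of_mem h5 (s := Cr K' (-b k) s), Pi.one_apply]
            exact le_add_self.trans le_add_self
      obtain ⟨k, hk⟩ := hex
      exact hk.trans (Finset.single_le_sum (f := fun k => (Cr K (b k) s).indicator (1 : E → ℝ≥0∞) y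
          + (Cr K (-b k) s).indicator 1 y
          + ((Cr K' (b k) s).indicator 1 y + (Cr K' (-b k) s).indicator 1 y))
          (fun j _ => zero_le) (Finset.mem_univ k))
    · rw [indicator_of_notMem hy]; exact zero_le
  have hfib : fib W ((symmDiff K K').indicator 1) x
      ≤ ∑ k, (fib W ((Cr K (b k) s).indicator 1) x + fib W ((Cr K (-b k) s).indicator 1) x
        + (fib W ((Cr K' (b k) s).indicator 1) x + fib W ((Cr K' (-b k) s).indicator 1) x)) := by
    refine (fib_mono hpt x).trans (le_of_eq ?_)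
    rw [fib_sum Finset.univ (f := fun k y => (Cr K (b k) s).indicator (1 : E → ℝ≥0∞) y
          + (Cr K (-b k) s).indicator 1 y
          + ((Cr K' (b k) s).indicator 1 y + (Cr K' (-b k) s).indicator 1 y)) (fun k =>
      ((hm K hKm _).add (hm K hKm _)).add ((hm K' hKm' _).add (hm K' hKm' _)))]
    apply Finset.sum_congr rfl
    intro k _
    rw [fib_add (f := fun y => (Cr K (b k) s).indicator (1 : E → ℝ≥0∞) y
      + (Cr K (-b k) s).indicator 1 y) ((hm K hKm _).add (hm K hKm _)),
      fib_add (hm K hKm _), fib_add (hm K' hKm' _)]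
  set D := fib W ((K ∩ K')ᶜ.indicator 1) x with hD
  have hDK : fib W (Kᶜ.indicator 1) x ≤ D := fib_mono (fun y => by
    apply indicator_le_indicator_of_subset _ (fun _ => zero_le)
    exact compl_subset_compl.mpr inter_subset_left) x
  have hDK' : fib W (K'ᶜ.indicator 1) x ≤ D := fib_mono (fun y => by
    apply indicator_le_indicator_of_subset _ (fun _ => zero_le)
    exact compl_subset_compl.mpr inter_subset_right) x
  have hr : ∀ (L : Set E) (hL : fib W (Lᶜ.indicator 1) x ≤ D) (e : E),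
      min 1 (fib W ((Cr L e s).indicator 1) x / D) ≤ rat W L e s x := by
    intro L hL e
    unfold rat
    exact min_le_min le_rfl (ENNReal.div_le_div_left hL _)
  unfold XF
  rw [← hD]
  simp_rw [← mul_add]
  rw [← Finset.mul_sum]
  apply mul_le_mul' le_rfl
  have hle1 : fib W ((symmDiff K K').indicator 1) x / D ≤ 1 :=
    ENNReal.div_le_of_le_mul (by rw [one_mul]; exact delta_le W K K' x)
  calc fib W ((symmDiff K K').indicator 1) x / D
      ≤ min 1 ((∑ k, (fib W ((Cr K (b k) s).indicator 1) x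
        + fib W ((Cr K (-b k) s).indicator 1) x
        + (fib W ((Cr K' (b k) s).indicator 1) x
          + fib W ((Cr K' (-b k) s).indicator 1) x))) / D) :=
        le_min hle1 (ENNReal.div_le_div_right hfib _)
    _ = min 1 (∑ k, (fib W ((Cr K (b k) s).indicator 1) x / D
        + fib W ((Cr K (-b k) s).indicator 1) x / D
        + (fib W ((Cr K' (b k) s).indicator 1) x / D
          + fib W ((Cr K' (-b k) s).indicator 1) x / D))) := by
        simp only [div_eq_mul_inv, Finset.sum_mul, add_mul]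
    _ ≤ ∑ k, min 1 (fib W ((Cr K (b k) s).indicator 1) x / D
        + fib W ((Cr K (-b k) s).indicator 1) x / D
        + (fib W ((Cr K' (b k) s).indicator 1) x / D
          + fib W ((Cr K' (-b k) s).indicator 1) x / D)) := min_one_sum _ _
    _ ≤ _ := by
        apply Finset.sum_le_sum
        intro k _
        exact (min_one_add _ _).trans (add_le_add
          ((min_one_add _ _).trans (add_le_add (hr K hDK _) (hr K hDK _)))
          ((min_one_add _ _).trans (add_le_add (hr K' hDK' _) (hr K' hDK' _))))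

lemma pdf_le (r : ℝ) : gaussianPDFReal 0 1 r ≤ Real.exp (-r ^ 2 / 2) := by
  unfold gaussianPDFReal
  simp only [NNReal.coe_one, mul_one, sub_zero]
  have h1 : (Real.sqrt (2 * Real.pi))⁻¹ ≤ 1 := by
    apply inv_le_one_of_one_le₀
    rw [Real.one_le_sqrt]
    have := Real.pi_gt_three
    linarith
  calc (Real.sqrt (2 * Real.pi))⁻¹ * Real.exp (-r ^ 2 / 2) ≤ 1 * Real.exp (-r ^ 2 / 2) :=
        mul_le_mul_of_nonneg_right h1 (Real.exp_pos _).le
    _ = _ := one_mul _

/-- **throughput of a change of the body** -/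
theorem thr {m : ℕ} {b : Fin m → E} (hb : Orthonormal ℝ b) {W' W : Submodule ℝ E} (hW : W' ≤ W)
    (hbW' : ∀ k, b k ∈ W'ᗮ) (hcase : ∀ k, b k ∈ W ∨ b k ∈ Wᗮ)
    {K K' : Set E} (hK : Convex ℝ K) (hKm : MeasurableSet K) (hK' : Convex ℝ K')
    (hKm' : MeasurableSet K') {R : ℝ} (hR : 0 ≤ R) (hKR : K ⊆ Metric.closedBall 0 R)
    (hKR' : K' ⊆ Metric.closedBall 0 R) {s a : ℝ} (hs : 0 < s) (hsR : s * (1 + R) ≤ 1)
    (ha : 0 < a) (haD : ∀ x, ENNReal.ofReal a ≤ fib W (Kᶜ.indicator 1) x)
    (haD' : ∀ x, ENNReal.ofReal a ≤ fib W (K'ᶜ.indicator 1) x)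
    (h1 : ∀ x ∈ K, x ∉ K' → ∃ k, x ∈ Cr K (b k) s ∨ x ∈ Cr K (-b k) s)
    (h2 : ∀ x ∈ K', x ∉ K → ∃ k, x ∈ Cr K' (b k) s ∨ x ∈ Cr K' (-b k) s)
    {Om A : E → ℝ≥0∞} (hOm : Measurable Om) (hOi : Inv W' Om) (hA : Measurable A)
    (hAi : Inv W A) {G G' : Fin m → E → ℝ≥0∞} (hG : ∀ k, Measurable (G k))
    (hG' : ∀ k, Measurable (G' k)) (hGi : ∀ k, Inv (Hp (b k)) (G k))
    (hGi' : ∀ k, Inv (Hp (b k)) (G' k))
    (hAG : ∀ k, ∀ x ∈ K, ENNReal.ofReal (Real.exp (-⟪b k, x⟫ ^ 2 / 2)) * A x ≤ G k x)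
    (hAG' : ∀ k, ∀ x ∈ K', ENNReal.ofReal (Real.exp (-⟪b k, x⟫ ^ 2 / 2)) * A x ≤ G' k x) :
    ∫⁻ x, Om x * XF W A K K' x ∂stdGaussian E
      ≤ 2 * ENNReal.ofReal (s * (2 + 6 * Real.log ((1 + a) / a)))
          * ∑ k, (∫⁻ x, Om x * G k x ∂stdGaussian E + ∫⁻ x, Om x * G' k x ∂stdGaussian E)
        + 2 * m * ENNReal.ofReal (2 * (Real.exp 2 * (1 + R) * s))
          * (∫⁻ x, Om x * (A x * K.indicator 1 x) ∂stdGaussian E
            + ∫⁻ x, Om x * (A x * K'.indicator 1 x) ∂stdGaussian E) := by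
  set c1 := ENNReal.ofReal (s * (2 + 6 * Real.log ((1 + a) / a))) with hc1
  set c2 := ENNReal.ofReal (2 * (Real.exp 2 * (1 + R) * s)) with hc2
  set P := ∫⁻ x, Om x * (A x * K.indicator 1 x) ∂stdGaussian E with hP
  set P' := ∫⁻ x, Om x * (A x * K'.indicator 1 x) ∂stdGaussian E with hP'
  have hnb : ∀ k, ‖b k‖ = 1 := fun k => hb.1 k
  have key : ∀ (L : Set E) (hL : Convex ℝ L) (hLm : MeasurableSet L)
      (hLR : L ⊆ Metric.closedBall 0 R)
      (haL : ∀ x, ENNReal.ofReal a ≤ fib W (Lᶜ.indicator 1) x) (H : Fin m → E → ℝ≥0∞)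
      (hH : ∀ k, Measurable (H k)) (hHi : ∀ k, Inv (Hp (b k)) (H k))
      (hAH : ∀ k, ∀ x ∈ L, ENNReal.ofReal (Real.exp (-⟪b k, x⟫ ^ 2 / 2)) * A x ≤ H k x)
      (k : Fin m) (σ : Bool),
      ∫⁻ x, Om x * (A x * rat W L (if σ then b k else -b k) s x) ∂stdGaussian E
        ≤ c1 * ∫⁻ x, Om x * H k x ∂stdGaussian E
          + c2 * ∫⁻ x, Om x * (A x * L.indicator 1 x) ∂stdGaussian E := by
    intro L hL hLm hLR haL H hH hHi hAH k σ
    cases σ
    · simp only [Bool.false_eq_true, if_false]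
      apply one_dir hL hLm hR hLR (by rw [norm_neg, hnb k]) hs hsR ha hW
        (Submodule.neg_mem _ (hbW' k)) _ haL hOm hOi hA hAi (hH k) (by rw [Hp_neg]; exact hHi k)
      · intro x hx
        refine le_trans (mul_le_mul' (ENNReal.ofReal_le_ofReal (pdf_le _)) le_rfl) ?_
        rw [inner_neg_left, neg_sq]
        exact hAH k x hx
      · rcases hcase k with h | h
        · exact Or.inl (Submodule.neg_mem _ h)
        · exact Or.inr (Submodule.neg_mem _ h)
    · simp only [if_true]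
      apply one_dir hL hLm hR hLR (hnb k) hs hsR ha hW (hbW' k) (hcase k) haL hOm hOi hA hAi
        (hH k) (hHi k)
      intro x hx
      exact le_trans (mul_le_mul' (ENNReal.ofReal_le_ofReal (pdf_le _)) le_rfl) (hAH k x hx)
  have hm : ∀ (L : Set E) (hL : MeasurableSet L) (e : E),
      Measurable fun x => Om x * (A x * rat W L e s x) := fun L hL e =>
    hOm.mul (hA.mul (measurable_rat W hL e s))
  calc ∫⁻ x, Om x * XF W A K K' x ∂stdGaussian E
      ≤ ∫⁻ x, ∑ k, (Om x * (A x * rat W K (b k) s x) + Om x * (A x * rat W K (-b k) s x)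
        + (Om x * (A x * rat W K' (b k) s x) + Om x * (A x * rat W K' (-b k) s x)))
        ∂stdGaussian E := by
        apply lintegral_mono
        intro x
        refine (mul_le_mul' le_rfl (XF_le hKm hKm' h1 h2 x)).trans (le_of_eq ?_)
        rw [Finset.mul_sum]
        apply Finset.sum_congr rfl
        intro k _
        ring
    _ = ∑ k, ((∫⁻ x, Om x * (A x * rat W K (b k) s x) ∂stdGaussian E
          + ∫⁻ x, Om x * (A x * rat W K (-b k) s x) ∂stdGaussian E)
        + (∫⁻ x, Om x * (A x * rat W K' (b k) s x) ∂stdGaussian E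
          + ∫⁻ x, Om x * (A x * rat W K' (-b k) s x) ∂stdGaussian E)) := by
        have h4m : ∀ k, Measurable fun x => Om x * (A x * rat W K (b k) s x)
            + Om x * (A x * rat W K (-b k) s x)
            + (Om x * (A x * rat W K' (b k) s x) + Om x * (A x * rat W K' (-b k) s x)) := fun k =>
          ((hm K hKm _).add (hm K hKm _)).add ((hm K' hKm' _).add (hm K' hKm' _))
        rw [lintegral_finset_sum Finset.univ (fun k _ => h4m k)]
        apply Finset.sum_congr rfl
        intro k _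
        rw [lintegral_add_left (f := fun x => Om x * (A x * rat W K (b k) s x)
            + Om x * (A x * rat W K (-b k) s x)) ((hm K hKm _).add (hm K hKm _)),
          lintegral_add_left (hm K hKm _), lintegral_add_left (hm K' hKm' _)]
    _ ≤ ∑ k, (((c1 * ∫⁻ x, Om x * G k x ∂stdGaussian E + c2 * P)
          + (c1 * ∫⁻ x, Om x * G k x ∂stdGaussian E + c2 * P))
        + ((c1 * ∫⁻ x, Om x * G' k x ∂stdGaussian E + c2 * P')
          + (c1 * ∫⁻ x, Om x * G' k x ∂stdGaussian E + c2 * P'))) := by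
        apply Finset.sum_le_sum
        intro k _
        have a1 := key K hK hKm hKR haD G hG hGi hAG k true
        have a2 := key K hK hKm hKR haD G hG hGi hAG k false
        have a3 := key K' hK' hKm' hKR' haD' G' hG' hGi' hAG' k true
        have a4 := key K' hK' hKm' hKR' haD' G' hG' hGi' hAG' k false
        simp only [if_true, Bool.false_eq_true, if_false] at a1 a2 a3 a4
        exact add_le_add (add_le_add a1 a2) (add_le_add a3 a4)
    _ = ∑ k : Fin m, (2 * c1 * (∫⁻ x, Om x * G k x ∂stdGaussian E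
          + ∫⁻ x, Om x * G' k x ∂stdGaussian E) + 2 * c2 * (P + P')) := by
        apply Finset.sum_congr rfl
        intro k _
        ring
    _ = _ := by
        rw [Finset.sum_add_distrib, ← Finset.mul_sum, Finset.sum_const, Finset.card_univ,
          Fintype.card_fin, nsmul_eq_mul]
        ring

/-- **throughput of one rotation** -/
theorem thr_isometry {m : ℕ} {b : Fin m → E} (hb : Orthonormal ℝ b) {W' W : Submodule ℝ E}
    (hW : W' ≤ W) (hbW' : ∀ k, b k ∈ W'ᗮ) (hbs : W'ᗮ ≤ Submodule.span ℝ (range b))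
    (hcase : ∀ k, b k ∈ W ∨ b k ∈ Wᗮ) (ρ : E ≃ₗᵢ[ℝ] E) (hρ : ∀ w ∈ W', ρ w = w)
    {K : Set E} (hK : Convex ℝ K) (hKm : MeasurableSet K) {R η : ℝ} (hR : 0 ≤ R)
    (hKR : K ⊆ Metric.closedBall 0 R) (hη : ∀ x ∈ Metric.closedBall (0 : E) R, ‖ρ x - x‖ ≤ η)
    {s a : ℝ} (hs : 0 < s) (hηs : Real.sqrt m * η ≤ s) (hsR : s * (1 + R) ≤ 1)
    (ha : 0 < a) (haD : ∀ x, ENNReal.ofReal a ≤ fib W (Kᶜ.indicator 1) x)
    (haD' : ∀ x, ENNReal.ofReal a ≤ fib W ((ρ '' K)ᶜ.indicator 1) x)
    {Om A : E → ℝ≥0∞} (hOm : Measurable Om) (hOi : Inv W' Om) (hA : Measurable A)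
    (hAi : Inv W A) {G G' : Fin m → E → ℝ≥0∞} (hG : ∀ k, Measurable (G k))
    (hG' : ∀ k, Measurable (G' k)) (hGi : ∀ k, Inv (Hp (b k)) (G k))
    (hGi' : ∀ k, Inv (Hp (b k)) (G' k))
    (hAG : ∀ k, ∀ x ∈ K, ENNReal.ofReal (Real.exp (-⟪b k, x⟫ ^ 2 / 2)) * A x ≤ G k x)
    (hAG' : ∀ k, ∀ x ∈ ρ '' K, ENNReal.ofReal (Real.exp (-⟪b k, x⟫ ^ 2 / 2)) * A x ≤ G' k x) :
    ∫⁻ x, Om x * XF W A K (ρ '' K) x ∂stdGaussian E
      ≤ 2 * ENNReal.ofReal (s * (2 + 6 * Real.log ((1 + a) / a)))
          * ∑ k, (∫⁻ x, Om x * G k x ∂stdGaussian E + ∫⁻ x, Om x * G' k x ∂stdGaussian E)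
        + 2 * m * ENNReal.ofReal (2 * (Real.exp 2 * (1 + R) * s))
          * (∫⁻ x, Om x * (A x * K.indicator 1 x) ∂stdGaussian E
            + ∫⁻ x, Om x * (A x * (ρ '' K).indicator 1 x) ∂stdGaussian E) := by
  have hK' : Convex ℝ (ρ '' K) := hK.linear_image ρ.toLinearEquiv.toLinearMap
  have hKm' : MeasurableSet (ρ '' K) := by
    have : ρ '' K = ρ.symm ⁻¹' K := by
      ext x
      simp only [mem_image, mem_preimage]
      constructor
      · rintro ⟨y, hy, rfl⟩
        simpa using hy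
      · intro h
        exact ⟨_, h, by simp⟩
    rw [this]
    exact ρ.symm.continuous.measurable hKm
  have hKR' : ρ '' K ⊆ Metric.closedBall 0 R := by
    rintro _ ⟨y, hy, rfl⟩
    have := hKR hy
    rw [mem_closedBall_zero_iff] at this ⊢
    rwa [ρ.norm_map]
  have hperp : ∀ x : E, ρ x - x ∈ W'ᗮ := by
    intro x
    rw [Submodule.mem_orthogonal]
    intro w hw
    rw [inner_sub_right]
    nth_rewrite 1 [← hρ w hw]
    rw [ρ.inner_map_map, sub_self]
  refine thr hb hW hbW' hcase hK hKm hK' hKm' hR hKR hKR' hs hsR ha haD haD' ?_ ?_ hOm hOi hA hAi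
    hG hG' hGi hGi' hAG hAG'
  · intro x hx hx'
    set y := ρ.symm x with hy
    have hyK : y ∉ K := fun h => hx' ⟨y, h, by simp [hy]⟩
    have hxy : ρ y = x := by simp [hy]
    have hny : y ∈ Metric.closedBall (0 : E) R := by
      have := hKR hx
      rw [mem_closedBall_zero_iff] at this ⊢
      rw [← hxy, ρ.norm_map] at this
      exact this
    have h3 : ‖y - x‖ ≤ η := by
      have := hη y hny
      rw [hxy] at this
      rwa [norm_sub_rev]
    have h4 : y - x ∈ Submodule.span ℝ (range b) := by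
      apply hbs
      have := Submodule.neg_mem _ (hperp y)
      rw [hxy, neg_sub] at this
      exact this
    exact cross hb hK hx hyK h4 ((mul_le_mul_of_nonneg_left h3 (Real.sqrt_nonneg _)).trans hηs)
  · intro x hx hx'
    have hyK : ρ x ∉ ρ '' K := by
      rintro ⟨y, hy, hxy⟩
      exact hx' (ρ.injective hxy ▸ hy)
    have h3 : ‖ρ x - x‖ ≤ η := hη x (hKR' hx)
    have h4 : ρ x - x ∈ Submodule.span ℝ (range b) := hbs (hperp x)
    exact cross hb hK' hx hyK h4 ((mul_le_mul_of_nonneg_left h3 (Real.sqrt_nonneg _)).trans hηs)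

/-- the dead mass of a fibre of a body contained in the ball of radius `R` -/
lemma dead_ge {K : Set E} (hKm : MeasurableSet K) {R : ℝ} (hR : 0 ≤ R)
    (hKR : K ⊆ Metric.closedBall 0 R) {W : Submodule ℝ E} {e : E} (he : ‖e‖ = 1) (heW : e ∈ Wᗮ)
    (x : E) : ENNReal.ofReal (Real.exp (-(R + 1) ^ 2 / 2) / 3) ≤ fib W (Kᶜ.indicator 1) x := by
  rw [← fib_tower (le_Hp heW) (measurable_one.indicator hKm.compl)]
  have h1 : ∀ y, ENNReal.ofReal (Real.exp (-(R + 1) ^ 2 / 2) / 3)
      ≤ fib (Hp e) (Kᶜ.indicator 1) y := by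
    intro y
    have hne : e ≠ 0 := by rintro rfl; simp at he
    rw [fib_line hne hKm.compl, he, inv_one, one_smul]
    set p := (Hp e).starProjection y with hp
    have hsub : Ioc R (R + 1) ⊆ {r : ℝ | p + r • e ∈ Kᶜ} := by
      intro r hr h
      have h3 := hKR h
      rw [mem_closedBall_zero_iff] at h3
      have h4 : |⟪e, p + r • e⟫| ≤ ‖e‖ * ‖p + r • e‖ := abs_real_inner_le_norm _ _
      have h5 : ⟪e, p + r • e⟫ = r := by
        rw [inner_add_right, inner_smul_right, real_inner_self_eq_norm_sq, he, hp, Hp_unit' he,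
          inner_sub_right, inner_smul_right, real_inner_self_eq_norm_sq, he]
        ring
      rw [h5, he, one_mul] at h4
      have := abs_le.mp (h4.trans h3)
      linarith [hr.1]
    refine le_trans ?_ (measure_mono hsub)
    rw [gaussianReal_apply 0 one_ne_zero]
    calc ENNReal.ofReal (Real.exp (-(R + 1) ^ 2 / 2) / 3)
        = ∫⁻ r in Ioc R (R + 1), ENNReal.ofReal (Real.exp (-(R + 1) ^ 2 / 2) / 3) := by
          rw [lintegral_const, Measure.restrict_apply_univ, Real.volume_Ioc]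
          simp
      _ ≤ ∫⁻ r in Ioc R (R + 1), gaussianPDF 0 1 r := by
          refine setLIntegral_mono' measurableSet_Ioc fun r hr => ?_
          unfold gaussianPDF gaussianPDFReal
          apply ENNReal.ofReal_le_ofReal
          simp only [NNReal.coe_one, mul_one, sub_zero]
          have h2 : (1 : ℝ) / 3 ≤ (Real.sqrt (2 * Real.pi))⁻¹ := by
            rw [one_div]
            apply inv_anti₀ (by positivity)
            rw [Real.sqrt_le_left (by norm_num)]
            have := Real.pi_lt_four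
            linarith
          have h3 : Real.exp (-(R + 1) ^ 2 / 2) ≤ Real.exp (-r ^ 2 / 2) := by
            apply Real.exp_le_exp.mpr
            have : r ^ 2 ≤ (R + 1) ^ 2 := by
              apply pow_le_pow_left₀ (by linarith [hr.1]) hr.2
            linarith
          calc Real.exp (-(R + 1) ^ 2 / 2) / 3 = (1 / 3) * Real.exp (-(R + 1) ^ 2 / 2) := by ring
            _ ≤ (Real.sqrt (2 * Real.pi))⁻¹ * Real.exp (-r ^ 2 / 2) :=
              mul_le_mul h2 h3 (Real.exp_pos _).le (by positivity)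
  calc ENNReal.ofReal (Real.exp (-(R + 1) ^ 2 / 2) / 3)
      = fib W (fun _ => ENNReal.ofReal (Real.exp (-(R + 1) ^ 2 / 2) / 3)) x :=
        (fib_const W _ x).symm
    _ ≤ _ := fib_mono h1 x

lemma log_dead {R : ℝ} (hR : 0 ≤ R) :
    Real.log ((1 + Real.exp (-(R + 1) ^ 2 / 2) / 3) / (Real.exp (-(R + 1) ^ 2 / 2) / 3))
      ≤ 2 + (R + 1) ^ 2 / 2 := by
  set a := Real.exp (-(R + 1) ^ 2 / 2) / 3 with ha
  have ha0 : 0 < a := by rw [ha]; positivity
  have hexp1 : Real.exp (-(R + 1) ^ 2 / 2) ≤ 1 := by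
    apply Real.exp_le_one_iff.mpr
    have : 0 ≤ (R + 1) ^ 2 := by positivity
    linarith
  have h1 : (1 + a) / a ≤ Real.exp (2 + (R + 1) ^ 2 / 2) := by
    have h2 : (1 + a) / a = 1 / a + 1 := by field_simp
    have h3 : 1 / a = 3 * Real.exp ((R + 1) ^ 2 / 2) := by
      rw [ha]
      have : Real.exp (-(R + 1) ^ 2 / 2) * Real.exp ((R + 1) ^ 2 / 2) = 1 := by
        rw [← Real.exp_add]
        have : -(R + 1) ^ 2 / 2 + (R + 1) ^ 2 / 2 = 0 := by ring
        rw [this, Real.exp_zero]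
      rw [div_div_eq_mul_div, one_mul, div_eq_iff (Real.exp_pos _).ne']
      linarith
    have h4 : 1 ≤ Real.exp ((R + 1) ^ 2 / 2) := Real.one_le_exp (by positivity)
    have h5 : (4 : ℝ) ≤ Real.exp 2 := by
      have h6 : (2 : ℝ) ≤ Real.exp 1 := by
        have := Real.add_one_le_exp (1 : ℝ)
        linarith
      have h7 : Real.exp 2 = Real.exp 1 * Real.exp 1 := by rw [← Real.exp_add]; norm_num
      rw [h7]
      nlinarith
    rw [h2, h3, Real.exp_add]
    nlinarith
  calc Real.log ((1 + a) / a) ≤ Real.log (Real.exp (2 + (R + 1) ^ 2 / 2)) :=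
        Real.log_le_log (by positivity) h1
    _ = _ := Real.log_exp _

/-- **block THR-M1**: the throughput of one rotation, everything explicit. `R ≥ 1`. -/
theorem thr_rotation {m : ℕ} {b : Fin m → E} (hb : Orthonormal ℝ b) {W' W : Submodule ℝ E}
    (hW : W' ≤ W) (hbW' : ∀ k, b k ∈ W'ᗮ) (hbs : W'ᗮ ≤ Submodule.span ℝ (range b))
    (hcase : ∀ k, b k ∈ W ∨ b k ∈ Wᗮ) (hne : ∃ e ∈ Wᗮ, ‖e‖ = 1)
    (ρ : E ≃ₗᵢ[ℝ] E) (hρ : ∀ w ∈ W', ρ w = w)
    {K : Set E} (hK : Convex ℝ K) (hKm : MeasurableSet K) {R η : ℝ} (hR : 1 ≤ R)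
    (hKR : K ⊆ Metric.closedBall 0 R) (hη : ∀ x ∈ Metric.closedBall (0 : E) R, ‖ρ x - x‖ ≤ η)
    {s : ℝ} (hs : 0 < s) (hηs : Real.sqrt m * η ≤ s) (hsR : s * (1 + R) ≤ 1)
    {Om A : E → ℝ≥0∞} (hOm : Measurable Om) (hOi : Inv W' Om) (hA : Measurable A)
    (hAi : Inv W A) {G G' : Fin m → E → ℝ≥0∞} (hG : ∀ k, Measurable (G k))
    (hG' : ∀ k, Measurable (G' k)) (hGi : ∀ k, Inv (Hp (b k)) (G k))
    (hGi' : ∀ k, Inv (Hp (b k)) (G' k))
    (hAG : ∀ k, ∀ x ∈ K, ENNReal.ofReal (Real.exp (-⟪b k, x⟫ ^ 2 / 2)) * A x ≤ G k x)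
    (hAG' : ∀ k, ∀ x ∈ ρ '' K, ENNReal.ofReal (Real.exp (-⟪b k, x⟫ ^ 2 / 2)) * A x ≤ G' k x) :
    ∫⁻ x, Om x * XF W A K (ρ '' K) x ∂stdGaussian E
      ≤ ENNReal.ofReal (34 * s * (1 + R) ^ 2)
          * ∑ k, (∫⁻ x, Om x * G k x ∂stdGaussian E + ∫⁻ x, Om x * G' k x ∂stdGaussian E)
        + ENNReal.ofReal (32 * m * s * (1 + R))
          * (∫⁻ x, Om x * (A x * K.indicator 1 x) ∂stdGaussian E
            + ∫⁻ x, Om x * (A x * (ρ '' K).indicator 1 x) ∂stdGaussian E) := by
  have hR0 : 0 ≤ R := by linarith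
  obtain ⟨e, heW, he⟩ := hne
  have hKm' : MeasurableSet (ρ '' K) := by
    have : ρ '' K = ρ.symm ⁻¹' K := by
      ext x
      simp only [mem_image, mem_preimage]
      constructor
      · rintro ⟨y, hy, rfl⟩
        simpa using hy
      · intro h
        exact ⟨_, h, by simp⟩
    rw [this]
    exact ρ.symm.continuous.measurable hKm
  have hKR' : ρ '' K ⊆ Metric.closedBall 0 R := by
    rintro _ ⟨y, hy, rfl⟩
    have := hKR hy
    rw [mem_closedBall_zero_iff] at this ⊢
    rwa [ρ.norm_map]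
  have h := thr_isometry hb hW hbW' hbs hcase ρ hρ hK hKm hR0 hKR hη hs hηs hsR
    (a := Real.exp (-(R + 1) ^ 2 / 2) / 3) (by positivity) (dead_ge hKm hR0 hKR he heW)
    (dead_ge hKm' hR0 hKR' he heW) hOm hOi hA hAi hG hG' hGi hGi' hAG hAG'
  refine h.trans (add_le_add (mul_le_mul' ?_ le_rfl) (mul_le_mul' ?_ le_rfl))
  · have h2 : (2 : ℝ≥0∞) = ENNReal.ofReal 2 := by simp
    rw [h2, ← ENNReal.ofReal_mul (by norm_num)]
    apply ENNReal.ofReal_le_ofReal
    have h3 := log_dead hR0
    have h4 : s * (2 + 6 * Real.log ((1 + Real.exp (-(R + 1) ^ 2 / 2) / 3)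
        / (Real.exp (-(R + 1) ^ 2 / 2) / 3))) ≤ s * (17 * (1 + R) ^ 2) := by
      apply mul_le_mul_of_nonneg_left _ hs.le
      nlinarith
    linarith
  · have h2 : (2 : ℝ≥0∞) = ENNReal.ofReal 2 := by simp
    have h3 : (m : ℝ≥0∞) = ENNReal.ofReal (m : ℝ) := by simp
    rw [h2, h3, ← ENNReal.ofReal_mul (by norm_num), ← ENNReal.ofReal_mul (by positivity)]
    apply ENNReal.ofReal_le_ofReal
    have h5 : Real.exp 2 ≤ 8 := by
      have h6 : Real.exp 1 < 2.7182818286 := Real.exp_one_lt_d9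
      have h7 : Real.exp 2 = Real.exp 1 * Real.exp 1 := by rw [← Real.exp_add]; norm_num
      have h8 := Real.exp_pos 1
      rw [h7]
      nlinarith
    have h9 : 0 ≤ (m : ℝ) * ((1 + R) * s) := by positivity
    nlinarith
end Vale.Agent.P262.H706
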