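import Mathlib
import Vale.Agent.P262.H395.Iso
import Vale.Agent.P262.H706.Thr3

/-!
# P262, milestone 1, block THR-M1, part 5: the mass of the rotated body

`image_mass` : the part of the bound of `thr_rotation` that lives on `ρ '' K` is returned to `K`.
`thr_final` : `thr_rotation` with the masses on `K` only.
-/

set_option linter.all false

open MeasureTheory ProbabilityTheory Set
open scoped ENNReal RealInnerProductSpace

namespace Vale.Agent.P262.H706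

open Vale.Agent.P262.H395 Vale.Agent.P262.H59

variable {E : Type*} [NormedAddCommGroup E] [InnerProductSpace ℝ E] [FiniteDimensional ℝ E]
  [MeasurableSpace E] [BorelSpace E]

lemma meas_image (ρ : E ≃ₗᵢ[ℝ] E) {K : Set E} (hKm : MeasurableSet K) :
    MeasurableSet (ρ '' K) := by
  have : ρ '' K = ρ.symm ⁻¹' K := by
    ext x
    simp only [mem_image, mem_preimage]
    constructor
    · rintro ⟨y, hy, rfl⟩
      simpa using hy
    · intro h
      exact ⟨_, h, by simp⟩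
  rw [this]
  exact ρ.symm.continuous.measurable hKm

lemma ind_image (ρ : E ≃ₗᵢ[ℝ] E) (K : Set E) (x : E) :
    (ρ '' K).indicator (1 : E → ℝ≥0∞) (ρ x) = K.indicator 1 x := by
  by_cases hx : x ∈ K
  · rw [indicator_of_mem hx, indicator_of_mem (mem_image_of_mem _ hx)]; rfl
  · rw [indicator_of_notMem hx, indicator_of_notMem]
    rintro ⟨y, hy, h⟩
    exact hx (ρ.injective h ▸ hy)

/-- the mass of the rotated body with the weight `Om * A` -/
theorem image_mass {W' : Submodule ℝ E} (ρ : E ≃ₗᵢ[ℝ] E) (hρ : ∀ w ∈ W', ρ w = w)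
    {K : Set E} (hKm : MeasurableSet K) {Om A : E → ℝ≥0∞} (hOm : Measurable Om)
    (hOi : Inv W' Om) (hA : Measurable A) {κ : ℝ≥0∞} (hκ : ∀ x ∈ K, A (ρ x) ≤ κ * A x) :
    ∫⁻ x, Om x * (A x * (ρ '' K).indicator 1 x) ∂stdGaussian E
      ≤ κ * ∫⁻ x, Om x * (A x * K.indicator 1 x) ∂stdGaussian E := by
  have hm : Measurable fun x => Om x * (A x * (ρ '' K).indicator 1 x) :=
    hOm.mul (hA.mul (measurable_one.indicator (meas_image ρ hKm)))
  rw [← lintegral_isometry ρ hm]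
  have hm2 : Measurable fun x => Om x * (A x * K.indicator 1 x) :=
    hOm.mul (hA.mul (measurable_one.indicator hKm))
  rw [← lintegral_const_mul _ hm2]
  apply lintegral_mono
  intro x
  have hfix : Fixes ρ W' := hρ
  have h1 : Om (ρ x) = Om x := hOi.eq_of (hfix.proj x)
  simp only
  rw [h1, ind_image ρ K x]
  by_cases hx : x ∈ K
  · rw [indicator_of_mem hx, Pi.one_apply, mul_one, mul_one]
    calc Om x * A (ρ x) ≤ Om x * (κ * A x) := mul_le_mul' le_rfl (hκ x hx)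
      _ = _ := by ring
  · rw [indicator_of_notMem hx, mul_zero, mul_zero]
    exact zero_le

/-- **block THR-M1, final form.** `P` bounds the line suprema of both bodies. -/
theorem thr_final {m : ℕ} {b : Fin m → E} (hb : Orthonormal ℝ b) {W' W : Submodule ℝ E}
    (hW : W' ≤ W) (hbW' : ∀ k, b k ∈ W'ᗮ) (hbs : W'ᗮ ≤ Submodule.span ℝ (range b))
    (hcase : ∀ k, b k ∈ W ∨ b k ∈ Wᗮ) (hne : ∃ e ∈ Wᗮ, ‖e‖ = 1)
    (ρ : E ≃ₗᵢ[ℝ] E) (hρ : ∀ w ∈ W', ρ w = w)
    {K : Set E} (hK : Convex ℝ K) (hKm : MeasurableSet K) {R η : ℝ} (hR : 1 ≤ R)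
    (hKR : K ⊆ Metric.closedBall 0 R) (hη : ∀ x ∈ Metric.closedBall (0 : E) R, ‖ρ x - x‖ ≤ η)
    {s : ℝ} (hs : 0 < s) (hηs : Real.sqrt m * η ≤ s) (hsR : s * (1 + R) ≤ 1)
    {Om A : E → ℝ≥0∞} (hOm : Measurable Om) (hOi : Inv W' Om) (hA : Measurable A)
    (hAi : Inv W A) {G G' : Fin m → E → ℝ≥0∞} (hG : ∀ k, Measurable (G k))
    (hG' : ∀ k, Measurable (G' k)) (hGi : ∀ k, Inv (Hp (b k)) (G k))
    (hGi' : ∀ k, Inv (Hp (b k)) (G' k))
    (hAG : ∀ k, ∀ x ∈ K, ENNReal.ofReal (Real.exp (-⟪b k, x⟫ ^ 2 / 2)) * A x ≤ G k x)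
    (hAG' : ∀ k, ∀ x ∈ ρ '' K, ENNReal.ofReal (Real.exp (-⟪b k, x⟫ ^ 2 / 2)) * A x ≤ G' k x)
    {κ c : ℝ≥0∞} (hκ : ∀ x ∈ K, A (ρ x) ≤ κ * A x)
    (hc : ∀ k, ∫⁻ x, Om x * G k x ∂stdGaussian E
      ≤ c * ∫⁻ x, Om x * (A x * K.indicator 1 x) ∂stdGaussian E)
    (hc' : ∀ k, ∫⁻ x, Om x * G' k x ∂stdGaussian E
      ≤ c * ∫⁻ x, Om x * (A x * (ρ '' K).indicator 1 x) ∂stdGaussian E) :
    ∫⁻ x, Om x * XF W A K (ρ '' K) x ∂stdGaussian E
      ≤ ENNReal.ofReal (34 * m * s * (1 + R) ^ 2) * ((c + 1) * (1 + κ))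
        * ∫⁻ x, Om x * (A x * K.indicator 1 x) ∂stdGaussian E := by
  set P := ∫⁻ x, Om x * (A x * K.indicator 1 x) ∂stdGaussian E with hP
  have hP' := image_mass ρ hρ hKm hOm hOi hA hκ
  rw [← hP] at hP'
  set P' := ∫⁻ x, Om x * (A x * (ρ '' K).indicator 1 x) ∂stdGaussian E with hP'def
  have h := thr_rotation hb hW hbW' hbs hcase hne ρ hρ hK hKm hR hKR hη hs hηs hsR hOm hOi hA
    hAi hG hG' hGi hGi' hAG hAG'
  refine h.trans ?_
  have hsum : ∑ k, (∫⁻ x, Om x * G k x ∂stdGaussian E + ∫⁻ x, Om x * G' k x ∂stdGaussian E)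
      ≤ m * (c * (P + P')) := by
    calc ∑ k, (∫⁻ x, Om x * G k x ∂stdGaussian E + ∫⁻ x, Om x * G' k x ∂stdGaussian E)
        ≤ ∑ k : Fin m, c * (P + P') := by
          apply Finset.sum_le_sum
          intro k _
          rw [mul_add]
          exact add_le_add (hc k) (hc' k)
      _ = m * (c * (P + P')) := by
          rw [Finset.sum_const, Finset.card_univ, Fintype.card_fin, nsmul_eq_mul]
  have hPP : P + P' ≤ (1 + κ) * P := by
    rw [add_mul, one_mul]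
    exact add_le_add le_rfl hP'
  have e1 : ENNReal.ofReal (34 * m * s * (1 + R) ^ 2)
      = m * ENNReal.ofReal (34 * s * (1 + R) ^ 2) := by
    have h3 : (m : ℝ≥0∞) = ENNReal.ofReal (m : ℝ) := by simp
    rw [h3, ← ENNReal.ofReal_mul (by positivity)]
    congr 1
    ring
  have e2 : ENNReal.ofReal (32 * m * s * (1 + R)) ≤ m * ENNReal.ofReal (34 * s * (1 + R) ^ 2) := by
    rw [← e1]
    apply ENNReal.ofReal_le_ofReal
    have h4 : 0 ≤ (m : ℝ) * s := by positivity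
    have h5 : 1 + R ≤ (1 + R) ^ 2 := by nlinarith
    nlinarith [mul_le_mul_of_nonneg_left h5 h4, mul_nonneg h4 (by linarith : (0:ℝ) ≤ 1 + R)]
  calc ENNReal.ofReal (34 * s * (1 + R) ^ 2)
          * ∑ k, (∫⁻ x, Om x * G k x ∂stdGaussian E + ∫⁻ x, Om x * G' k x ∂stdGaussian E)
        + ENNReal.ofReal (32 * m * s * (1 + R)) * (P + P')
      ≤ ENNReal.ofReal (34 * s * (1 + R) ^ 2) * (m * (c * (P + P')))
        + m * ENNReal.ofReal (34 * s * (1 + R) ^ 2) * (P + P') :=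
        add_le_add (mul_le_mul' le_rfl hsum) (mul_le_mul' e2 le_rfl)
    _ = m * ENNReal.ofReal (34 * s * (1 + R) ^ 2) * ((c + 1) * (P + P')) := by ring
    _ ≤ m * ENNReal.ofReal (34 * s * (1 + R) ^ 2) * ((c + 1) * ((1 + κ) * P)) :=
        mul_le_mul' le_rfl (mul_le_mul' le_rfl hPP)
    _ = _ := by rw [e1]; ring

end Vale.Agent.P262.H706
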