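import Mathlib
import Vale.Agent.P262.H706.Thr4
import Vale.Agent.P262.H924.Box3
import Vale.Agent.P262.H118.Rot

/-!
# P262, milestone 1, block G3: the throughput for the BOX caps on the fixed flag

`thr_cap` : `thr_final` for `W = L f i`, `W' = L f j`, `A = cap i`, with the orthonormal basis
`f j, …, f (d-1)` of `(L f j)ᗮ`.
-/

set_option linter.all false

open MeasureTheory ProbabilityTheory Set Module
open scoped ENNReal RealInnerProductSpace

namespace Vale.Agent.P262.H706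

open Vale.Agent.P262.H395 Vale.Agent.P262.H59 Vale.Agent.P262.H118 Vale.Agent.P262.H924

variable {E : Type*} [NormedAddCommGroup E] [InnerProductSpace ℝ E] [FiniteDimensional ℝ E]

/-! ### the flag -/

lemma mem_L_perp {f : ℕ → E} {d : ℕ} (hf : ONB f d) {j k : ℕ} (hjk : j ≤ k) (hk : k < d) :
    f k ∈ (L f j)ᗮ :=
  Submodule.orthogonal_le (L_mono f hjk) (hf.mem_perp hk)

lemma L_top {f : ℕ → E} {d : ℕ} (hf : ONB f d) (hd : finrank ℝ E = d) : L f d = ⊤ := by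
  have h1 := hf.finrank_perp hd le_rfl
  have h2 : (L f d)ᗮ = ⊥ := by
    apply Submodule.finrank_eq_zero.mp
    omega
  exact (Submodule.orthogonal_eq_bot_iff).1 h2

/-- the end of the flag is a basis of the fibre -/
lemma perp_le_span {f : ℕ → E} {d : ℕ} (hf : ONB f d) (hd : finrank ℝ E = d) {j : ℕ}
    (hj : j ≤ d) : (L f j)ᗮ ≤ Submodule.span ℝ (range fun k : Fin (d - j) => f (j + k)) := by
  intro x hx
  have h1 : x = ∑ k ∈ Finset.range d, ⟪f k, x⟫ • f k := by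
    have h2 := starProjection_L hf (le_refl d) x
    rw [← h2]
    have h3 : x ∈ L f d := by rw [L_top hf hd]; trivial
    exact (Submodule.starProjection_eq_self_iff.mpr h3).symm
  rw [h1]
  refine Submodule.sum_mem _ fun k hk => ?_
  rw [Finset.mem_range] at hk
  rcases lt_or_ge k j with hkj | hkj
  · have h4 : ⟪f k, x⟫ = 0 := inner_perp hkj hx
    rw [h4, zero_smul]
    exact Submodule.zero_mem _
  · apply Submodule.smul_mem
    apply Submodule.subset_span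
    exact ⟨⟨k - j, by omega⟩, by simp only; congr 1; omega⟩

lemma orthonormal_end {f : ℕ → E} {d : ℕ} (hf : ONB f d) (j : ℕ) :
    Orthonormal ℝ fun k : Fin (d - j) => f (j + k) := by
  rw [orthonormal_iff_ite]
  intro k l
  rw [ONB.inner_eq hf (by omega) (by omega)]
  simp [Fin.ext_iff]

omit [FiniteDimensional ℝ E] in
/-- displacement of a plane rotation -/
lemma rotL_disp {p q : E} (h : ON p q) (φ : ℝ) (x : E) : ‖rotL p q φ x - x‖ ≤ |φ| * ‖x‖ := by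
  have e1 : rotL p q φ x - x = ((Real.cos φ - 1) * ⟪p, x⟫ - Real.sin φ * ⟪q, x⟫) • p
      + (Real.sin φ * ⟪p, x⟫ + (Real.cos φ - 1) * ⟪q, x⟫) • q := by
    rw [rotL_apply]; abel
  have e2 : ‖rotL p q φ x - x‖ ^ 2 = (2 - 2 * Real.cos φ) * (⟪p, x⟫ ^ 2 + ⟪q, x⟫ ^ 2) := by
    rw [e1, ← real_inner_self_eq_norm_sq]
    simp only [inner_add_left, inner_add_right, real_inner_smul_left, real_inner_smul_right,
      h.pp, h.qq, h.hpq, h.qp]
    linear_combination (⟪p, x⟫ ^ 2 + ⟪q, x⟫ ^ 2) * Real.sin_sq_add_cos_sq φ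
  have h2 : 2 - 2 * Real.cos φ ≤ φ ^ 2 := by
    have := Real.one_sub_sq_div_two_le_cos (x := φ)
    linarith
  have hb : ⟪p, x⟫ ^ 2 + ⟪q, x⟫ ^ 2 ≤ ‖x‖ ^ 2 := by
    have hs : x - (⟪p, x⟫ • p + ⟪q, x⟫ • q) = x - ⟪p, x⟫ • p - ⟪q, x⟫ • q := by abel
    have h5 : ‖x - (⟪p, x⟫ • p + ⟪q, x⟫ • q)‖ ^ 2 = ‖x‖ ^ 2 - (⟪p, x⟫ ^ 2 + ⟪q, x⟫ ^ 2) := by
      rw [← real_inner_self_eq_norm_sq, ← real_inner_self_eq_norm_sq]
      simp only [inner_add_left, inner_add_right, inner_sub_left, inner_sub_right,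
        real_inner_smul_left, real_inner_smul_right, h.pp, h.qq, h.hpq, h.qp,
        real_inner_comm p x, real_inner_comm q x]
      ring
    have := sq_nonneg ‖x - (⟪p, x⟫ • p + ⟪q, x⟫ • q)‖
    linarith
  have h3 : ‖rotL p q φ x - x‖ ^ 2 ≤ (|φ| * ‖x‖) ^ 2 := by
    rw [e2, mul_pow, sq_abs]
    exact mul_le_mul h2 hb (by positivity) (sq_nonneg φ)
  exact le_of_sq_le_sq h3 (by positivity)

variable [MeasurableSpace E] [BorelSpace E]

/-- a small rotation changes the caps by at most the factor three -/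
lemma cap_rot_le {f : ℕ → E} {d : ℕ} (hf : ONB f d) {A0 kap h : ℝ}
    (hA0 : 0 ≤ A0) (hkap : 0 ≤ kap) (hh : 0 ≤ h) {l : ℕ} (hl : l ≤ d) {R η : ℝ} (hR : 1 ≤ R)
    (hη1 : η * (1 + R) ≤ 1) {x y : E} (hx : ‖x‖ ≤ R) (hy : ‖y - x‖ ≤ η) :
    cap A0 kap f h l y ≤ 3 * cap A0 kap f h l x := by
  have h1 := capR_add_le hf hA0 hkap hl hh (h := h) x (y - x)
  rw [add_sub_cancel] at h1
  have h4 : (2 * ‖x‖ * ‖y - x‖ + ‖y - x‖ ^ 2) / 8 ≤ 1 := by
    have h5 := norm_nonneg x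
    have h6 := norm_nonneg (y - x)
    have h7 : ‖x‖ * ‖y - x‖ ≤ R * η := mul_le_mul hx hy h6 (by linarith)
    have h8 : ‖y - x‖ ^ 2 ≤ η ^ 2 := pow_le_pow_left₀ h6 hy 2
    have h9 : η ≤ 1 := by nlinarith
    nlinarith
  have h10 : Real.exp 1 ≤ 3 := Real.exp_one_lt_three.le
  unfold cap
  have h11 : (3 : ℝ≥0∞) = ENNReal.ofReal 3 := by simp
  rw [h11, ← ENNReal.ofReal_mul (by norm_num)]
  apply ENNReal.ofReal_le_ofReal
  refine h1.trans ?_
  apply mul_le_mul_of_nonneg_right _ (capR_nonneg hA0 hkap l x)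
  exact (Real.exp_le_exp.mpr h4).trans h10

/-- **the throughput on the flag**, with the line suprema as input. -/
theorem thr_flag {f : ℕ → E} {d : ℕ} (hf : ONB f d) (hd : finrank ℝ E = d)
    {j i : ℕ} (hji : j ≤ i) (hid : i < d)
    (ρ : E ≃ₗᵢ[ℝ] E) (hρ : ∀ w ∈ L f j, ρ w = w)
    {K : Set E} (hK : Convex ℝ K) (hKm : MeasurableSet K) {R η : ℝ} (hR : 1 ≤ R)
    (hKR : K ⊆ Metric.closedBall 0 R) (hη : ∀ x ∈ Metric.closedBall (0 : E) R, ‖ρ x - x‖ ≤ η)
    (hη0 : 0 < η) (hsR : Real.sqrt d * η * (1 + R) ≤ 1)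
    {Om A : E → ℝ≥0∞} (hOm : Measurable Om) (hOi : Inv (L f j) Om) (hA : Measurable A)
    (hAi : Inv (L f i) A)
    {G G' : ℕ → E → ℝ≥0∞} (hG : ∀ k, j ≤ k → k < d → Measurable (G k))
    (hG' : ∀ k, j ≤ k → k < d → Measurable (G' k)) (hGi : ∀ k, Inv (Hp (f k)) (G k))
    (hGi' : ∀ k, Inv (Hp (f k)) (G' k))
    (hAG : ∀ k, j ≤ k → k < d → ∀ x ∈ K,
      ENNReal.ofReal (Real.exp (-⟪f k, x⟫ ^ 2 / 2)) * A x ≤ G k x)
    (hAG' : ∀ k, j ≤ k → k < d → ∀ x ∈ ρ '' K,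
      ENNReal.ofReal (Real.exp (-⟪f k, x⟫ ^ 2 / 2)) * A x ≤ G' k x)
    (hκ : ∀ x ∈ K, A (ρ x) ≤ 3 * A x)
    {c : ℝ≥0∞}
    (hc : ∀ k, j ≤ k → k < d → ∫⁻ x, Om x * G k x ∂stdGaussian E
      ≤ c * ∫⁻ x, Om x * (A x * K.indicator 1 x) ∂stdGaussian E)
    (hc' : ∀ k, j ≤ k → k < d → ∫⁻ x, Om x * G' k x ∂stdGaussian E
      ≤ c * ∫⁻ x, Om x * (A x * (ρ '' K).indicator 1 x) ∂stdGaussian E) :
    ∫⁻ x, Om x * XF (L f i) A K (ρ '' K) x ∂stdGaussian E
      ≤ ENNReal.ofReal (34 * d * (Real.sqrt d * η) * (1 + R) ^ 2) * ((c + 1) * (1 + 3))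
        * ∫⁻ x, Om x * (A x * K.indicator 1 x) ∂stdGaussian E := by
  have hd0 : 0 < d := by omega
  have hs : 0 < Real.sqrt d * η := by positivity
  have hb := orthonormal_end hf j
  have hm : ((d - j : ℕ) : ℝ) ≤ d := by exact_mod_cast Nat.sub_le d j
  have key := thr_final (b := fun k : Fin (d - j) => f (j + k)) hb (L_mono f hji)
    (fun k => mem_L_perp hf (by omega) (by omega)) (perp_le_span hf hd (by omega))
    (fun k => by
      rcases lt_or_ge (j + k.1) i with h1 | h1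
      · exact Or.inl (mem_L f h1)
      · exact Or.inr (mem_L_perp hf h1 (by omega)))
    ⟨f i, mem_L_perp hf le_rfl hid, hf.norm i hid⟩ ρ hρ hK hKm hR hKR hη hs
    (by
      apply mul_le_mul_of_nonneg_right _ hη0.le
      exact Real.sqrt_le_sqrt hm) hsR hOm hOi hA hAi
    (G := fun k => G (j + k)) (G' := fun k => G' (j + k)) (fun k => hG _ (by omega) (by omega))
    (fun k => hG' _ (by omega) (by omega))
    (fun k => hGi _) (fun k => hGi' _) (fun k x hx => hAG _ (by omega) (by omega) x hx)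
    (fun k x hx => hAG' _ (by omega) (by omega) x hx) hκ
    (fun k => hc _ (by omega) (by omega)) (fun k => hc' _ (by omega) (by omega))
  refine key.trans ?_
  apply mul_le_mul' _ le_rfl
  apply mul_le_mul' _ le_rfl
  apply ENNReal.ofReal_le_ofReal
  have h12 : 0 ≤ (Real.sqrt d * η) * (1 + R) ^ 2 := by positivity
  nlinarith

end Vale.Agent.P262.H706
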