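import Mathlib
import Vale.Agent.P262.H706.G3a
import Vale.Agent.P262.H493.PerB

/-!
# P262, milestone 1, block G3, part 2: region of the labels which are nowhere stopped

`thr_box` : `thr_flag` for `Om = 1_S`, `S` a cylinder over `L f j`, the caps `cap l` (`j ≤ l ≤ i`),
the line suprema of 493's PERW as input.
-/

set_option linter.all false

open MeasureTheory ProbabilityTheory Set Module
open scoped ENNReal RealInnerProductSpace

namespace Vale.Agent.P262.H706

open Vale.Agent.P262.H395 Vale.Agent.P262.H59 Vale.Agent.P262.H118 Vale.Agent.P262.H924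
open Vale.Agent.P262.PerW (mm)
open Vale.Agent.P262.H493 (ee)

variable {E : Type*} [NormedAddCommGroup E] [InnerProductSpace ℝ E] [FiniteDimensional ℝ E]
  [MeasurableSpace E] [BorelSpace E]

lemma XF_congr {W : Submodule ℝ E} {A A' : E → ℝ≥0∞} {x : E} (h : A x = A' x) (K K' : Set E) :
    XF W A K K' x = XF W A' K K' x := by unfold XF; rw [h]

lemma continuous_cap' {f : ℕ → E} {A0 kap h : ℝ} (l : ℕ) : Continuous (cap A0 kap f h l) :=
  ENNReal.continuous_ofReal.comp (continuous_capR l)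

/-- **the throughput over a region of labels**, one cap. -/
theorem thr_box {f : ℕ → E} {d : ℕ} (hf : ONB f d) (hd : finrank ℝ E = d) {A0 kap h : ℝ}
    (hA0 : 0 ≤ A0) (hkap : 0 ≤ kap) (hh : 0 ≤ h) {j l i : ℕ} (hji : j ≤ i) (hli : l ≤ i)
    (hid : i < d) (ρ : E ≃ₗᵢ[ℝ] E) (hρ : ∀ w ∈ L f j, ρ w = w)
    {K : Set E} (hK : Convex ℝ K) (hKc : IsClosed K) {R η : ℝ} (hR : 1 ≤ R)
    (hKR : K ⊆ Metric.closedBall 0 R) (hη : ∀ x ∈ Metric.closedBall (0 : E) R, ‖ρ x - x‖ ≤ η)
    (hη0 : 0 < η) (hsR : Real.sqrt d * η * (1 + R) ≤ 1)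
    {S : Set E} (hSm : MeasurableSet S) (hSi : ∀ x, ∀ w ∈ (L f j)ᗮ, (x + w ∈ S ↔ x ∈ S))
    {c : ℝ≥0∞}
    (hc : ∀ k, j ≤ k → k < d →
      ∫⁻ x, S.indicator 1 x * mm K (cap A0 kap f h l) (f k) x ∂stdGaussian E
      ≤ c * ∫⁻ x, S.indicator 1 x * (cap A0 kap f h l x * K.indicator 1 x) ∂stdGaussian E)
    (hc' : ∀ k, j ≤ k → k < d →
      ∫⁻ x, S.indicator 1 x * mm (ρ '' K) (cap A0 kap f h l) (f k) x ∂stdGaussian E
      ≤ c * ∫⁻ x, S.indicator 1 x * (cap A0 kap f h l x * (ρ '' K).indicator 1 x)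
        ∂stdGaussian E) :
    ∫⁻ x, S.indicator 1 x * XF (L f i) (cap A0 kap f h l) K (ρ '' K) x ∂stdGaussian E
      ≤ ENNReal.ofReal (34 * d * (Real.sqrt d * η) * (1 + R) ^ 2) * ((c + 1) * (1 + 3))
        * ∫⁻ x, S.indicator 1 x * (cap A0 kap f h l x * K.indicator 1 x) ∂stdGaussian E := by
  have hKm : MeasurableSet K := hKc.measurableSet
  have hKcomp : IsCompact K :=
    (isCompact_closedBall (0 : E) R).of_isClosed_subset hKc hKR
  have hKcomp' : IsCompact (ρ '' K) := hKcomp.image ρ.continuous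
  have hwc : Continuous (cap A0 kap f h l) := continuous_cap' l
  have hwt : ∀ x, cap A0 kap f h l x ≠ ⊤ := fun x => ENNReal.ofReal_ne_top
  have hη1 : η * (1 + R) ≤ 1 := by
    refine le_trans ?_ hsR
    have h3 : 1 ≤ Real.sqrt d := by
      rw [Real.one_le_sqrt]
      have : 0 < d := by omega
      exact_mod_cast this
    have : 0 ≤ η * (1 + R) := by positivity
    nlinarith
  exact thr_flag hf hd hji hid ρ hρ hK hKm hR hKR hη hη0 hsR
    (Om := S.indicator 1) (measurable_one.indicator hSm)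
    (fun x u hu => by
      by_cases hx : x ∈ S
      · rw [indicator_of_mem hx, indicator_of_mem ((hSi x u hu).2 hx)]; rfl
      · rw [indicator_of_notMem hx, indicator_of_notMem (fun h => hx ((hSi x u hu).1 h))])
    (measurable_cap l) (inv_cap hli) (G := fun k => mm K (cap A0 kap f h l) (f k))
    (G' := fun k => mm (ρ '' K) (cap A0 kap f h l) (f k))
    (fun k _ _ => (Vale.Agent.P262.PerW.usc_mm hKcomp hwc hwt (f k)).measurable)
    (fun k _ _ => (Vale.Agent.P262.PerW.usc_mm hKcomp' hwc hwt (f k)).measurable)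
    (fun k => Vale.Agent.P262.PerW.inv_mm _ _ _) (fun k => Vale.Agent.P262.PerW.inv_mm _ _ _)
    (fun k _ _ x hx => Vale.Agent.P262.PerW.le_mm hx)
    (fun k _ _ x hx => Vale.Agent.P262.PerW.le_mm hx)
    (fun x hx => by
      have h1 := hKR hx
      exact cap_rot_le hf hA0 hkap hh (by omega) hR hη1 (by simpa using h1) (hη x h1))
    hc hc'

end Vale.Agent.P262.H706
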