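import Mathlib
import Vale.Agent.P262.H118.SysGeo
import Vale.Agent.P262.M1.Blocks

/-!
# P262, milestone 1, block G3, part 3: facts about `Sys` used for the throughput

`ph_le` : every plane rotation has angle at most `3 π N / δ`; `same_rot` : the blocks of the levels
`≤ jj m` contain both states of a rotation; `om` is measurable and a cylinder; `q_le_fib` : the
alive mass bounds the mass of `X i m` outside `Z j`, `j ≤ i`.
-/

set_option linter.all false

open MeasureTheory ProbabilityTheory Set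
open scoped ENNReal RealInnerProductSpace
open Vale.Agent.P262.H118 (L Iv st en ONB K1 rotE ON tau L_mono iv_st)
open Vale.Agent.P262.H395 (fib mix Inv Fixes)

namespace Vale.Agent.P262.H706

open Vale.Agent.P262.M1 (Sys)
open Vale.Agent.P262.M1.Sys (iw om OM Same sB eB lf q a De Dc Dl Kq Xr)

variable {E : Type*} [NormedAddCommGroup E] [InnerProductSpace ℝ E] [FiniteDimensional ℝ E]
  [MeasurableSpace E] [BorelSpace E]

variable (S : Sys E)

/-! ### angles -/

theorem ph_le {m : ℕ} (h : S.IsRot m) : S.el.ph m ≤ 3 * Real.pi * S.N / S.δ := by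
  obtain ⟨h1, h2, h3⟩ := S.rot_data h
  have ht : S.tm m < S.T := by omega
  have h4 := iv_st (S.K.zero_mem_nw (S.el.jj m + 1)) ht
  have h5 := S.K.angle _ h2 _ _ h4.1
  refine le_trans ?_ h5
  have h6 : S.K.al (S.el.jj m) (S.tm m) ≤ ∑ t ∈ Finset.Ico (st (S.K.nw (S.el.jj m + 1)) (S.tm m))
      (en (S.K.nw (S.el.jj m + 1)) S.T (st (S.K.nw (S.el.jj m + 1)) (S.tm m))),
      S.K.al (S.el.jj m) t :=
    Finset.single_le_sum (f := fun t => S.K.al (S.el.jj m) t)
      (fun t _ => S.K.al_nonneg _ _) (Finset.mem_Ico.2 h4.2)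
  refine le_trans ?_ h6
  have h7 := S.el.angle (S.tm m) (S.el.jj m)
  refine le_trans ?_ h7
  have h8 : (if S.el.jj m = S.el.jj m then S.el.ph m else 0) = S.el.ph m := if_pos rfl
  rw [← h8]
  refine Finset.single_le_sum (f := fun k => if S.el.jj k = S.el.jj m then S.el.ph k else 0)
    (fun k _ => ?_) (Finset.mem_Ico.2 ⟨h.1, ?_⟩)
  · split_ifs
    · exact S.el.ph_nonneg k
    · exact le_rfl
  · have := h.2
    omega

/-! ### blocks -/

theorem same_rot {m : ℕ} (h : S.IsRot m) {l : ℕ} (hl : l ≤ S.el.jj m) :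
    S.Same l m m ∧ S.Same l m (m + 1) := by
  obtain ⟨h1, h2, h3⟩ := S.rot_data h
  have ht : S.tm m < S.T := by omega
  have h4 := iv_st (S.K.zero_mem_nb l) ht
  have hlf : l ≠ S.lf := by unfold lf; omega
  have hmono := S.n_strictMono
  have h5 : S.el.n (S.sT l m) ≤ S.el.n (S.tm m) := hmono.monotone h4.2.1
  have h6 : S.el.n (S.tm m + 1) ≤ S.el.n (S.eT l m) := hmono.monotone h4.2.2
  have h7 := h.1
  have h8 := h.2
  unfold Same sB eB
  rw [if_neg hlf, if_neg hlf]
  refine ⟨⟨by omega, by omega⟩, by omega, by omega⟩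

/-! ### the rule -/

lemma measurable_De (i m : ℕ) : Measurable (S.De i m) :=
  Vale.Agent.P262.H395.measurable_fib (measurable_one.indicator (S.measurableSet_X i m).compl)

lemma measurable_Dc (i m : ℕ) : Measurable (S.Dc i m) :=
  Vale.Agent.P262.H395.measurable_fib (measurable_one.indicator
    ((S.measurableSet_X i m).inter (S.measurableSet_X i (m + 1))).compl)

lemma measurable_Dl (i m : ℕ) : Measurable (S.Dl i m) :=
  Vale.Agent.P262.H395.measurable_fib (measurable_one.indicator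
    ((S.measurableSet_X i m).symmDiff (S.measurableSet_X i (m + 1))))

lemma measurableSet_Z (i : ℕ) : MeasurableSet (S.cp.Z i) := by
  have := (S.cp.Z_closed i).measurableSet
  simpa using this.compl

theorem measurableSet_om (i m : ℕ) : MeasurableSet (S.om i m) := by
  have hA : Measurable fun x => ENNReal.ofReal (S.cp.A i x) := (S.cp.A_meas i).ennreal_ofReal
  have hMA : Measurable fun x => ENNReal.ofReal (S.M * S.cp.A i x) :=
    ((S.cp.A_meas i).const_mul _).ennreal_ofReal
  have e : S.om i m = (S.cp.Z i)ᶜ ∩ ({x | ENNReal.ofReal (S.cp.A i x) ≤ S.De i (S.eB i m) x} ∪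
      ⋃ k, ⋃ (_ : S.sB i m ≤ k ∧ k < S.eB i m),
        {x | ENNReal.ofReal (S.M * S.cp.A i x) ≤ S.Dc i k x}) := by
    ext x
    simp only [om, mem_setOf_eq, mem_inter_iff, mem_compl_iff, mem_union, mem_iUnion, exists_prop,
      and_assoc]
  rw [e]
  refine (measurableSet_Z S i).compl.inter (MeasurableSet.union ?_ ?_)
  · exact measurableSet_le hA (measurable_De S i _)
  · exact MeasurableSet.iUnion fun k => MeasurableSet.iUnion fun _ =>
      measurableSet_le hMA (measurable_Dc S i k)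

theorem cyl_om (i m : ℕ) (x : E) {w : E} (hw : w ∈ (L S.f i)ᗮ) :
    x + w ∈ S.om i m ↔ x ∈ S.om i m := by
  have h1 := S.cp.Z_cyl i x w hw
  have h2 := S.cp.A_cyl i x w hw
  have h3 : ∀ k, S.De i k (x + w) = S.De i k x := fun k =>
    Vale.Agent.P262.H395.inv_fib (L S.f i) _ x w hw
  have h4 : ∀ k, S.Dc i k (x + w) = S.Dc i k x := fun k =>
    Vale.Agent.P262.H395.inv_fib (L S.f i) _ x w hw
  simp only [om, mem_setOf_eq, h1, h2, h3, h4]

theorem measurableSet_OM (r m : ℕ) : MeasurableSet (S.OM r m) := by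
  have e : S.OM r m = ⋂ i, ⋂ (_ : i ≤ r), S.om i m := by
    ext x; simp only [OM, mem_setOf_eq, mem_iInter]
  rw [e]
  exact MeasurableSet.iInter fun i => MeasurableSet.iInter fun _ => measurableSet_om S i m

theorem cyl_OM (r m : ℕ) (x : E) {w : E} (hw : w ∈ (L S.f r)ᗮ) :
    x + w ∈ S.OM r m ↔ x ∈ S.OM r m := by
  simp only [OM, mem_setOf_eq]
  exact forall_congr' fun i => forall_congr' fun hi =>
    cyl_om S i m x (Submodule.orthogonal_le (L_mono S.f hi) hw)

theorem inv_OM (r m : ℕ) : Inv (L S.f r) (iw (S.OM r m)) := by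
  intro x w hw
  have h := cyl_OM S r m x hw
  unfold iw
  by_cases hx : x ∈ S.OM r m
  · rw [indicator_of_mem hx, indicator_of_mem (h.2 hx)]; rfl
  · rw [indicator_of_notMem hx, indicator_of_notMem (fun h' => hx (h.1 h'))]

lemma measurable_iw {s : Set E} (hs : MeasurableSet s) : Measurable (iw s) :=
  measurable_one.indicator hs

lemma Z_mono_le {i j : ℕ} (h : i ≤ j) : S.cp.Z i ⊆ S.cp.Z j := by
  induction j, h using Nat.le_induction with
  | base => exact subset_rfl
  | succ j _ ih => exact ih.trans (S.cp.Z_mono j)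

lemma inv_A {i j : ℕ} (hij : i ≤ j) : Inv (L S.f j) fun x => ENNReal.ofReal (S.cp.A i x) := by
  intro x w hw
  simp only
  rw [S.cp.A_cyl i x w (Submodule.orthogonal_le (L_mono S.f hij) hw)]

/-! ### health -/

/-- a set which is a cylinder over labels fixed by `C` does not move -/
lemma mem_fixes {W : Submodule ℝ E} {C : E ≃ₗᵢ[ℝ] E} (hC : Fixes C W) {D : Set E}
    (hD : ∀ x, ∀ w ∈ Wᗮ, (x + w ∈ D ↔ x ∈ D)) (x : E) : C x ∈ D ↔ x ∈ D := by
  have h1 := hC.proj x
  have h2 : C x - x ∈ Wᗮ := by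
    have e1 : C x - x = (C x - W.starProjection (C x)) - (x - W.starProjection x) := by
      rw [h1]; abel
    rw [e1]
    exact Submodule.sub_mem _ (Submodule.sub_starProjection_mem_orthogonal _)
      (Submodule.sub_starProjection_mem_orthogonal _)
  have h3 := hD x _ h2
  rwa [add_sub_cancel] at h3

lemma measurableSet_Kq (m : ℕ) : MeasurableSet (S.Kq m) :=
  (S.measurableSet_X S.lf m).diff (measurableSet_Z S S.lf)

theorem q_le_fib (m : ℕ) {l j i : ℕ} (hlj : l ≤ j) (hji : j ≤ i) (hi : i ≤ S.lf) (x : E) :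
    S.q l m x ≤ fib (L S.f l) ((S.X i m ∩ (S.cp.Z j)ᶜ).indicator 1) x := by
  obtain ⟨C, hC, hX⟩ := S.X_change m hi
  have hCl : Fixes C (L S.f l) := hC.mono (L_mono S.f (hlj.trans hji))
  have hm : Measurable ((S.X i m ∩ (S.cp.Z j)ᶜ).indicator (1 : E → ℝ≥0∞)) :=
    measurable_one.indicator ((S.measurableSet_X i m).inter (measurableSet_Z S j).compl)
  rw [← Vale.Agent.P262.H395.fib_fixes hCl hm x]
  unfold q
  refine Vale.Agent.P262.H395.fib_mono (fun y => ?_) x
  by_cases hy : y ∈ S.Kq m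
  · have h1 : C y ∈ S.X i m := by
      have := hy.1
      rw [hX] at this
      exact this
    have h2 : C y ∉ S.cp.Z j := by
      have hCj : Fixes C (L S.f j) := hC.mono (L_mono S.f hji)
      rw [mem_fixes hCj (S.cp.Z_cyl j) y]
      exact fun h => hy.2 (Z_mono_le S (hji.trans hi) h)
    have h3 : C y ∈ S.X i m ∩ (S.cp.Z j)ᶜ := ⟨h1, h2⟩
    rw [indicator_of_mem hy, indicator_of_mem h3]
    rfl
  · rw [indicator_of_notMem hy]
    exact zero_le

theorem healthy_root {m : ℕ} (h : S.Healthy m) {j i : ℕ} (hji : j ≤ i) (hi : i ≤ S.lf) :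
    ENNReal.ofReal (4 / 5) ≤ ∫⁻ x, (S.X i m ∩ (S.cp.Z j)ᶜ).indicator 1 x ∂stdGaussian E := by
  have h1 := q_le_fib S m (Nat.zero_le j) hji hi 0
  have h2 : L S.f 0 = ⊥ := rfl
  unfold q at h1
  rw [h2, Vale.Agent.P262.H395.fib_bot, Vale.Agent.P262.H395.fib_bot] at h1
  refine le_trans ?_ h1
  rw [lintegral_indicator_one (measurableSet_Kq S m)]
  exact h

end Vale.Agent.P262.H706
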