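import Mathlib
import Vale.Agent.P262.H706.G3b
import Vale.Agent.P262.H706.G3c
import Vale.Agent.P262.H493.PerBox

/-!
# P262, milestone 1, block (G3) on `Sys`

`G3_box` : the throughput price of a rotation, for the box caps, from (R1) and (G2).
-/

set_option linter.all false

open MeasureTheory ProbabilityTheory Set
open scoped ENNReal RealInnerProductSpace
open Vale.Agent.P262.H118 (L Iv st en ONB K1 rotE rotL ON tau L_mono iv_st rotL_of_perp rotE_symm_apply)
open Vale.Agent.P262.H395 (fib mix Inv Fixes)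
open Vale.Agent.P262.H924 (cap capR)
open Vale.Agent.P262.PerW (mm regN box_perw_int)

namespace Vale.Agent.P262.H706

open Vale.Agent.P262.M1 (Sys)
open Vale.Agent.P262.M1.Sys (iw om OM Same sB eB lf q a De Dc Dl Kq Xr)

variable {E : Type*} [NormedAddCommGroup E] [InnerProductSpace ℝ E] [FiniteDimensional ℝ E]
  [MeasurableSpace E] [BorelSpace E]

variable (S : Sys E)

/-- the labels stopped at level `l` -/
def Dst (m l : ℕ) : Set E := {x | x ∉ S.cp.Z l ∧ x ∉ S.om l m}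

lemma reg_eq (m j : ℕ) : regN (Dst S m) 0 (j + 1) ∩ (S.cp.Z j)ᶜ = S.OM j m := by
  ext x
  simp only [regN, Dst, OM, mem_inter_iff, mem_setOf_eq, mem_compl_iff, not_and, not_not]
  constructor
  · rintro ⟨h1, h2⟩ i hi
    exact h1 i (Nat.zero_le i) (by omega) (fun h => h2 (Z_mono_le S hi h))
  · intro h
    refine ⟨fun i _ hi _ => h i (by omega), ?_⟩
    exact (h j le_rfl).1

/-- **(A4) on `Sys`**: the line suprema of the caps over the region `OM j m`. -/
theorem perw_sys {A0 kap0 h : ℝ} (hA0 : 0 ≤ A0) (hkap0 : 0 ≤ kap0) (hh : 0 ≤ h)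
    (hη : 6 * S.d * Real.exp (-h ^ 2 / 2) ≤ 3 / 100) (hR : 1 ≤ S.R) {m m' j : ℕ}
    (hs : ∀ l ≤ j, ∀ x, x ∉ S.cp.Z l → x ∉ S.om l m' → ENNReal.ofReal (4 / 5) ≤ S.q l m x)
    (hroot : S.Healthy m) {i l : ℕ} (hji : j ≤ i) (hjl : j ≤ l) (hi : i ≤ S.lf) (hl : l ≤ S.d)
    {k : ℕ} (hjk : j ≤ k) (hk : k < S.d) :
    ∫⁻ x, (S.OM j m').indicator 1 x * mm (S.X i m) (cap A0 kap0 S.f h l) (S.f k) x
        ∂stdGaussian E ≤
      ENNReal.ofReal (200000 * (1 + 2 * S.R)) *
        ∫⁻ x, (S.OM j m').indicator 1 x * (cap A0 kap0 S.f h l x * (S.X i m).indicator 1 x)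
          ∂stdGaussian E := by
  have he : ∀ l', l' ≤ k → S.f k ∈ (L S.f l')ᗮ := fun l' h' =>
    Submodule.orthogonal_le (L_mono S.f h') (S.hf.mem_perp hk)
  have hC : ∀ x, ∀ w ∈ (ℝ ∙ S.f k)ᗮᗮ, (x + w ∈ (S.cp.Z j)ᶜ ↔ x ∈ (S.cp.Z j)ᶜ) := by
    intro x w hw
    have h1 : w ∈ (L S.f j)ᗮ := by
      obtain ⟨s, hs⟩ := Vale.Agent.P262.PerW.exists_smul_of_mem hw
      rw [← hs]
      exact Submodule.smul_mem _ _ (he j hjk)
    simp only [mem_compl_iff]
    rw [S.cp.Z_cyl j x w h1]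
  have h45 : ENNReal.ofReal (3 / 5) ≤ ENNReal.ofReal (4 / 5) :=
    ENNReal.ofReal_le_ofReal (by norm_num)
  have key := box_perw_int (A0 := A0) (kap := kap0) (h := h) S.hf hA0 hkap0 hh hη
    (S.isCompact_X i m) (S.convex_X i m) (by linarith : (0:ℝ) ≤ S.R) (S.X_subset_ball i m)
    (i := l) hl (S.hf.norm k hk) (Or.inl ⟨k, hk, rfl⟩) (j := j + 1) (by omega)
    (fun l' hl' => he l' (by omega)) (S.cp.Z_closed j) (S.cp.Z_convex j) hC
    (D := Dst S m')
    (fun l' _ => (measurableSet_Z S l').compl.inter (measurableSet_om S l' m').compl)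
    (fun l' _ x w hw => by
      simp only [Dst, mem_setOf_eq]
      rw [S.cp.Z_cyl l' x w hw, cyl_om S l' m' x hw])
    (fun l' hl' x hx _ => by
      refine h45.trans ((hs l' (by omega) x hx.1 hx.2).trans ?_)
      exact q_le_fib S m (by omega) hji hi x)
    (h45.trans (healthy_root S hroot hji hi))
  rw [reg_eq S m' j] at key
  exact key

/-! ### the unit -/

/-- the unit with the plain body -/
noncomputable def Uq (j m' m : ℕ) : ℝ≥0∞ :=
  ∫⁻ x, iw (S.OM j m') x * ENNReal.ofReal (S.cp.A j x) * iw (S.X S.lf m) x ∂stdGaussian E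

lemma A_le_b0 {j m' : ℕ} {x : E} (hx : x ∈ S.OM j m') :
    ENNReal.ofReal (S.cp.A j x) ≤ ENNReal.ofReal S.cp.b0 :=
  ENNReal.ofReal_le_ofReal (S.cp.A_le j x (hx j le_rfl).1)

/-- killed at a level in `(j, i]` -/
lemma one_le_kill {j m' i : ℕ} {x : E} (hx : x ∈ S.OM j m') (hZ : x ∈ S.cp.Z i) :
    1 ≤ ∑ l ∈ Finset.Ioc j i, (ENNReal.ofReal S.cp.b0)⁻¹ * ENNReal.ofReal (S.cp.A l x) := by
  obtain ⟨l, hl, hlA⟩ := S.cp.lt_A i x hZ
  have hb := S.cp.b0_pos
  have hjl : j < l := by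
    by_contra hcon
    push Not at hcon
    have h1 : x ∉ S.cp.Z l := fun h => (hx j le_rfl).1 (Z_mono_le S hcon h)
    have h2 := S.cp.A_le l x h1
    linarith
  refine le_trans ?_ (Finset.single_le_sum
    (f := fun l => (ENNReal.ofReal S.cp.b0)⁻¹ * ENNReal.ofReal (S.cp.A l x))
    (fun _ _ => zero_le) (Finset.mem_Ioc.2 ⟨hjl, hl⟩))
  have h0 : ENNReal.ofReal S.cp.b0 ≠ 0 := by simpa using hb
  calc (1 : ℝ≥0∞) = (ENNReal.ofReal S.cp.b0)⁻¹ * ENNReal.ofReal S.cp.b0 :=
        (ENNReal.inv_mul_cancel h0 ENNReal.ofReal_ne_top).symm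
    _ ≤ _ := mul_le_mul' le_rfl (ENNReal.ofReal_le_ofReal hlA.le)

lemma a_le {j m' i : ℕ} {x : E} (hx : x ∈ S.OM j m') :
    S.a i x ≤ ENNReal.ofReal (S.cp.A i x) +
      ∑ l ∈ Finset.Ioc j i, (ENNReal.ofReal S.cp.b0)⁻¹ * ENNReal.ofReal (S.cp.A l x) := by
  unfold a
  split_ifs with h
  · exact (one_le_kill S hx h).trans le_add_self
  · exact le_self_add

/-- **the unit with the alive body** -/
theorem Uq_le {κ : ℝ} (hκ0 : 0 ≤ κ) (hκ : S.d * κ ≤ 1 / 2) {j m' m : ℕ}
    (hG : ∀ i, j < i → i < S.d →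
      ∫⁻ x, iw (S.OM j m') x * ENNReal.ofReal (S.cp.A i x) * iw (S.X S.lf m) x ∂stdGaussian E ≤
        ENNReal.ofReal κ * Uq S j m' m) :
    Uq S j m' m ≤ 2 * S.Un j m' m := by
  have hOm := measurable_iw (measurableSet_OM S j m')
  have hA : ∀ i, Measurable fun x => ENNReal.ofReal (S.cp.A i x) := fun i =>
    (S.cp.A_meas i).ennreal_ofReal
  have hX := measurable_iw (S.measurableSet_X S.lf m)
  have hKq := measurable_iw (measurableSet_Kq S m)
  have hd := S.hd2
  have hb := S.cp.b0_pos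
  have h0 : ENNReal.ofReal S.cp.b0 ≠ 0 := by simpa using hb
  have hmX : ∀ l, Measurable fun x => iw (S.OM j m') x * ENNReal.ofReal (S.cp.A l x) *
      iw (S.X S.lf m) x := fun l => (hOm.mul (hA l)).mul hX
  have hmK : Measurable fun x => iw (S.OM j m') x * ENNReal.ofReal (S.cp.A j x) *
      iw (S.Kq m) x := (hOm.mul (hA j)).mul hKq
  have hpt : ∀ x, iw (S.OM j m') x * ENNReal.ofReal (S.cp.A j x) * iw (S.X S.lf m) x ≤
      iw (S.OM j m') x * ENNReal.ofReal (S.cp.A j x) * iw (S.Kq m) x +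
      ∑ l ∈ Finset.Ioc j S.lf, iw (S.OM j m') x * ENNReal.ofReal (S.cp.A l x) *
        iw (S.X S.lf m) x := by
    intro x
    by_cases hx : x ∈ S.OM j m'
    · by_cases hXx : x ∈ S.X S.lf m
      · by_cases hZ : x ∈ S.cp.Z S.lf
        · refine le_trans ?_ le_add_self
          have e1 : iw (S.OM j m') x = 1 := indicator_of_mem hx _
          have e2 : iw (S.X S.lf m) x = 1 := indicator_of_mem hXx _
          simp only [e1, e2, one_mul, mul_one]
          have h1 := one_le_kill S hx hZ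
          calc ENNReal.ofReal (S.cp.A j x) ≤ ENNReal.ofReal S.cp.b0 := A_le_b0 S hx
            _ = ENNReal.ofReal S.cp.b0 * 1 := (mul_one _).symm
            _ ≤ ENNReal.ofReal S.cp.b0 * ∑ l ∈ Finset.Ioc j S.lf,
                (ENNReal.ofReal S.cp.b0)⁻¹ * ENNReal.ofReal (S.cp.A l x) :=
                mul_le_mul' le_rfl h1
            _ = ∑ l ∈ Finset.Ioc j S.lf, ENNReal.ofReal (S.cp.A l x) := by
                rw [Finset.mul_sum]
                refine Finset.sum_congr rfl fun l _ => ?_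
                rw [← mul_assoc, ENNReal.mul_inv_cancel h0 ENNReal.ofReal_ne_top, one_mul]
        · refine le_trans ?_ le_self_add
          have h2 : x ∈ S.Kq m := ⟨hXx, hZ⟩
          have e1 : iw (S.X S.lf m) x = 1 := indicator_of_mem hXx _
          have e2 : iw (S.Kq m) x = 1 := indicator_of_mem h2 _
          rw [e1, e2]
      · have e1 : iw (S.X S.lf m) x = 0 := indicator_of_notMem hXx _
        rw [e1, mul_zero]
        exact zero_le
    · have e1 : iw (S.OM j m') x = 0 := indicator_of_notMem hx _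
      rw [e1, zero_mul, zero_mul]
      exact zero_le
  have hsum : ∫⁻ x, ∑ l ∈ Finset.Ioc j S.lf, iw (S.OM j m') x * ENNReal.ofReal (S.cp.A l x) *
        iw (S.X S.lf m) x ∂stdGaussian E ≤ ENNReal.ofReal (1 / 2) * Uq S j m' m := by
    rw [lintegral_finset_sum _ fun l _ => hmX l]
    calc ∑ l ∈ Finset.Ioc j S.lf, ∫⁻ x, iw (S.OM j m') x * ENNReal.ofReal (S.cp.A l x) *
          iw (S.X S.lf m) x ∂stdGaussian E
        ≤ ∑ l ∈ Finset.Ioc j S.lf, ENNReal.ofReal κ * Uq S j m' m := by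
          refine Finset.sum_le_sum fun l hl => ?_
          rw [Finset.mem_Ioc] at hl
          refine hG l hl.1 ?_
          have := hl.2
          unfold lf at this
          omega
      _ = (Finset.Ioc j S.lf).card * (ENNReal.ofReal κ * Uq S j m' m) := by
          rw [Finset.sum_const, nsmul_eq_mul]
      _ ≤ S.d * (ENNReal.ofReal κ * Uq S j m' m) := by
          refine mul_le_mul' ?_ le_rfl
          rw [Nat.card_Ioc]
          have : S.lf - j ≤ S.d := by unfold lf; omega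
          exact_mod_cast this
      _ = ENNReal.ofReal (S.d * κ) * Uq S j m' m := by
          rw [ENNReal.ofReal_mul (Nat.cast_nonneg _), ENNReal.ofReal_natCast, mul_assoc]
      _ ≤ _ := mul_le_mul' (ENNReal.ofReal_le_ofReal hκ) le_rfl
  have hfin : Uq S j m' m ≠ ⊤ := by
    have h1 : Uq S j m' m ≤ ∫⁻ x, ENNReal.ofReal S.cp.b0 ∂stdGaussian E := by
      refine lintegral_mono fun x => ?_
      by_cases hx : x ∈ S.OM j m'
      · calc iw (S.OM j m') x * ENNReal.ofReal (S.cp.A j x) * iw (S.X S.lf m) x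
            ≤ 1 * ENNReal.ofReal S.cp.b0 * 1 := by
              refine mul_le_mul' (mul_le_mul' ?_ (A_le_b0 S hx)) ?_
              · exact Vale.Agent.P262.H706.ind_le_one _ _
              · exact Vale.Agent.P262.H706.ind_le_one _ _
          _ = _ := by rw [one_mul, mul_one]
      · have e1 : iw (S.OM j m') x = 0 := indicator_of_notMem hx _
        rw [e1, zero_mul, zero_mul]
        exact zero_le
    rw [lintegral_const, measure_univ, mul_one] at h1
    exact ne_top_of_le_ne_top ENNReal.ofReal_ne_top h1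
  have hmain : Uq S j m' m ≤ S.Un j m' m + ENNReal.ofReal (1 / 2) * Uq S j m' m := by
    calc Uq S j m' m ≤ _ := lintegral_mono hpt
      _ = S.Un j m' m + _ := by
          rw [lintegral_add_left hmK]
          rfl
      _ ≤ _ := add_le_add le_rfl hsum
  -- absorb
  have h3 : ENNReal.ofReal (1 / 2) * Uq S j m' m + ENNReal.ofReal (1 / 2) * Uq S j m' m
      = Uq S j m' m := by
    rw [← add_mul, ← ENNReal.ofReal_add (by norm_num) (by norm_num)]
    norm_num
  have h4 : ENNReal.ofReal (1 / 2) * Uq S j m' m ≤ S.Un j m' m := by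
    have h5 : ENNReal.ofReal (1 / 2) * Uq S j m' m + ENNReal.ofReal (1 / 2) * Uq S j m' m
        ≤ S.Un j m' m + ENNReal.ofReal (1 / 2) * Uq S j m' m := by rw [h3]; exact hmain
    exact (ENNReal.add_le_add_iff_right
      (ENNReal.mul_ne_top ENNReal.ofReal_ne_top hfin)).1 h5
  calc Uq S j m' m = 2 * (ENNReal.ofReal (1 / 2) * Uq S j m' m) := by
        rw [two_mul]; exact h3.symm
    _ ≤ _ := mul_le_mul' le_rfl h4

/-! ### the theorem -/

/-- the constant of (G3) -/
noncomputable def cG3 (d : ℕ) (R b0 κ : ℝ) : ℝ :=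
  272 * d * Real.sqrt d * R * (1 + R) ^ 2 * (200001 + 400000 * R) * κ * (1 + d / b0)

/-- the throughput of one cap over `OM (jj m) m` -/
theorem thr_sys {A0 kap0 h : ℝ} (hA0 : 0 ≤ A0) (hkap0 : 0 ≤ kap0) (hh : 0 ≤ h)
    (hη : 6 * S.d * Real.exp (-h ^ 2 / 2) ≤ 3 / 100)
    (hcA : ∀ l, l < S.d → ∀ x, S.cp.A l x = capR A0 kap0 S.f h l x) (hR : 1 ≤ S.R) (hR1 : S.R1)
    (hang : Real.sqrt S.d * (3 * Real.pi * S.N / S.δ * S.R) * (1 + S.R) ≤ 1)
    {m i l : ℕ} (hm : m < S.mT) (hrot : S.IsRot m) (hji : S.el.jj m < i) (hi : i < S.d)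
    (hH : S.Healthy m) (hH' : S.Healthy (m + 1)) (hjl : S.el.jj m ≤ l) (hli : l ≤ i)
    (hφ : 0 < S.el.ph m) :
    ∫⁻ x, iw (S.OM (S.el.jj m) m) x * XF (L S.f i) (fun x => ENNReal.ofReal (S.cp.A l x))
      (S.X i m) (S.X i (m + 1)) x ∂stdGaussian E ≤
    ENNReal.ofReal (34 * S.d * (Real.sqrt S.d * (S.el.ph m * S.R)) * (1 + S.R) ^ 2) *
      ((ENNReal.ofReal (200000 * (1 + 2 * S.R)) + 1) * (1 + 3)) *
      ∫⁻ x, iw (S.OM (S.el.jj m) m) x * ENNReal.ofReal (S.cp.A l x) * iw (S.X i m) x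
        ∂stdGaussian E := by
  have hilf : i ≤ S.lf := by unfold lf; omega
  obtain ⟨b, hb, hbL, hU, hX⟩ := S.X_rot_gt hrot hji
  have hjd := (S.rot_data hrot).2.1
  -- the isometry
  have hXρ : S.X i (m + 1) = (rotE hb (S.el.ph m)).symm '' S.X i m := by
    rw [hX]
    ext x
    simp only [mem_preimage, mem_image]
    constructor
    · intro hx
      exact ⟨_, hx, LinearIsometryEquiv.symm_apply_apply _ _⟩
    · rintro ⟨y, hy, rfl⟩
      rw [LinearIsometryEquiv.apply_symm_apply]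
      exact hy
  have hρ : ∀ w ∈ L S.f (S.el.jj m), (rotE hb (S.el.ph m)).symm w = w := by
    intro w hw
    rw [rotE_symm_apply]
    refine rotL_of_perp _ ?_ ?_
    · have := S.hf.mem_perp (by omega : S.el.jj m < S.d)
      exact (Submodule.mem_orthogonal' _ _).1 this w hw
    · exact (Submodule.mem_orthogonal' _ _).1
        (Submodule.orthogonal_le (L_mono S.f (Nat.le_succ _)) hbL) w hw
  have hdisp : ∀ x ∈ Metric.closedBall (0 : E) S.R,
      ‖(rotE hb (S.el.ph m)).symm x - x‖ ≤ S.el.ph m * S.R := by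
    intro x hx
    rw [rotE_symm_apply]
    refine (rotL_disp hb _ x).trans ?_
    rw [abs_neg, abs_of_pos hφ]
    have : ‖x‖ ≤ S.R := by simpa using hx
    exact mul_le_mul_of_nonneg_left this hφ.le
  have hsR : Real.sqrt S.d * (S.el.ph m * S.R) * (1 + S.R) ≤ 1 := by
    refine le_trans ?_ hang
    have h1 := ph_le S hrot
    have h2 : 0 ≤ Real.sqrt S.d := Real.sqrt_nonneg _
    have h3 : S.el.ph m * S.R ≤ 3 * Real.pi * S.N / S.δ * S.R :=
      mul_le_mul_of_nonneg_right h1 (by linarith)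
    exact mul_le_mul_of_nonneg_right (mul_le_mul_of_nonneg_left h3 h2) (by linarith)
  have hcap : (fun x => ENNReal.ofReal (S.cp.A l x)) = cap A0 kap0 S.f h l := by
    funext x
    unfold cap
    rw [hcA l (by omega)]
  have hst : ∀ m'', S.Same (S.el.jj m) m m'' → m'' = m ∨ m'' = m + 1 →
      ∀ l' ≤ S.el.jj m, ∀ x, x ∉ S.cp.Z l' → x ∉ S.om l' m →
        ENNReal.ofReal (4 / 5) ≤ S.q l' m'' x := by
    intro m'' _ hm'' l' hl' x h1 h2
    have h3 := same_rot S hrot hl'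
    rcases hm'' with rfl | rfl
    · exact hR1 l' m'' m'' x (by omega) hm.le h3.1 h1 h2
    · exact hR1 l' m (m + 1) x (by omega) hm.le h3.2 h1 h2
  have h3 := same_rot S hrot le_rfl
  have key := thr_box (A0 := A0) (kap := kap0) (h := h) S.hf S.hd hA0 hkap0 hh hji.le hli hi
    (rotE hb (S.el.ph m)).symm hρ (S.convex_X i m) (S.isClosed_X i m) hR (S.X_subset_ball i m)
    hdisp (by positivity) hsR (measurableSet_OM S (S.el.jj m) m)
    (fun x w hw => cyl_OM S (S.el.jj m) m x hw)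
    (c := ENNReal.ofReal (200000 * (1 + 2 * S.R)))
    (fun k h1 h2 => perw_sys S hA0 hkap0 hh hη hR (hst m h3.1 (Or.inl rfl)) hH hji.le hjl hilf
      (by omega) h1 h2)
    (fun k h1 h2 => by
      rw [← hXρ]
      exact perw_sys S hA0 hkap0 hh hη hR (hst (m + 1) h3.2 (Or.inr rfl)) hH' hji.le hjl hilf
        (by omega) h1 h2)
  rw [hcap, hXρ]
  refine key.trans (le_of_eq ?_)
  congr 1
  refine lintegral_congr fun x => ?_
  rw [mul_assoc]
  have : cap A0 kap0 S.f h l x = ENNReal.ofReal (S.cp.A l x) := (congrFun hcap x).symm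
  rw [this]
  rfl

/-- **(G3) for the box caps** -/
theorem G3_box {A0 kap0 h : ℝ} (hA0 : 0 ≤ A0) (hkap0 : 0 ≤ kap0) (hh : 0 ≤ h)
    (hη : 6 * S.d * Real.exp (-h ^ 2 / 2) ≤ 3 / 100)
    (hcA : ∀ l, l < S.d → ∀ x, S.cp.A l x = capR A0 kap0 S.f h l x) (hR : 1 ≤ S.R) (hR1 : S.R1)
    (hang : Real.sqrt S.d * (3 * Real.pi * S.N / S.δ * S.R) * (1 + S.R) ≤ 1)
    {κ : ℝ} (hκ0 : 0 ≤ κ) (hκ : S.d * κ ≤ 1 / 2) (hG2 : S.G2 κ) :
    S.G3 (cG3 S.d S.R S.cp.b0 κ) := by
  intro m i hm hrot hji hi hH hH'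
  have hφ0 : 0 ≤ S.el.ph m := S.el.ph_nonneg m
  have hb := S.cp.b0_pos
  rcases hφ0.eq_or_lt with h0 | hφ
  · -- no rotation
    obtain ⟨b, hb, hbL, hU, hX⟩ := S.X_rot_gt hrot hji
    have hX2 : S.X i (m + 1) = S.X i m := by
      rw [hX, ← h0]
      ext x
      simp [Vale.Agent.P262.H118.rotE_apply, Vale.Agent.P262.H118.rotL_apply]
    have h1 : ∀ x, S.Xr i m x = 0 := by
      intro x
      unfold Xr
      rw [S.Dl_eq_zero hX2 x]
      simp
    simp only [h1, mul_zero, lintegral_zero]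
    exact zero_le
  have hd2 := S.hd2
  have hκ1 : κ ≤ 1 := by
    have : (2 : ℝ) ≤ S.d := by exact_mod_cast hd2
    nlinarith
  have hjd := (S.rot_data hrot).2.1
  have hilf : i ≤ S.lf := by unfold lf; omega
  set j := S.el.jj m with hj
  have h3 := same_rot S hrot (le_refl j)
  have hOm := measurable_iw (measurableSet_OM S j m)
  have hA : ∀ i, Measurable fun x => ENNReal.ofReal (S.cp.A i x) := fun i =>
    (S.cp.A_meas i).ennreal_ofReal
  set c1 : ℝ≥0∞ := ENNReal.ofReal (34 * S.d * (Real.sqrt S.d * (S.el.ph m * S.R))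
    * (1 + S.R) ^ 2) * ((ENNReal.ofReal (200000 * (1 + 2 * S.R)) + 1) * (1 + 3)) with hc1
  -- far lemma
  have hfar : ∀ l, j < l → l < S.d →
      ∫⁻ x, iw (S.OM j m) x * ENNReal.ofReal (S.cp.A l x) * iw (S.X S.lf m) x ∂stdGaussian E ≤
        ENNReal.ofReal κ * Uq S j m m := by
    intro l hjl hl
    refine (hG2 j l m m hjl.le hl hm.le hm.le h3.1 hH).trans ?_
    refine mul_le_mul' (ENNReal.ofReal_le_ofReal ?_) le_rfl
    have : κ ^ (l - j) ≤ κ ^ 1 := pow_le_pow_of_le_one hκ0 hκ1 (by omega)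
    simpa using this
  have hT : ∀ l, j < l → l ≤ i →
      ∫⁻ x, iw (S.OM j m) x * XF (L S.f i) (fun x => ENNReal.ofReal (S.cp.A l x))
        (S.X i m) (S.X i (m + 1)) x ∂stdGaussian E ≤ c1 * (ENNReal.ofReal κ * Uq S j m m) := by
    intro l hjl hli
    refine (thr_sys S hA0 hkap0 hh hη hcA hR hR1 hang hm hrot hji hi hH hH' hjl.le hli hφ).trans ?_
    refine mul_le_mul' le_rfl ?_
    refine le_trans (le_of_eq ?_) (hfar l hjl (by omega))
    have hg : Inv (L S.f i) fun x => iw (S.OM j m) x * ENNReal.ofReal (S.cp.A l x) :=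
      ((inv_OM S j m).mono (L_mono S.f hji.le)).mul (inv_A S hli)
    exact (S.lintegral_X hg (hOm.mul (hA l)) m hilf).symm
  -- pointwise
  have hXFm : ∀ l, Measurable fun x => iw (S.OM j m) x *
      XF (L S.f i) (fun x => ENNReal.ofReal (S.cp.A l x)) (S.X i m) (S.X i (m + 1)) x := by
    intro l
    refine hOm.mul ((hA l).mul ?_)
    exact (measurable_Dl S i m).div (measurable_Dc S i m)
  have hpt : ∀ x, iw (S.OM j m) x * S.Xr i m x ≤
      iw (S.OM j m) x * XF (L S.f i) (fun x => ENNReal.ofReal (S.cp.A i x))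
        (S.X i m) (S.X i (m + 1)) x +
      ∑ l ∈ Finset.Ioc j i, (ENNReal.ofReal S.cp.b0)⁻¹ * (iw (S.OM j m) x *
        XF (L S.f i) (fun x => ENNReal.ofReal (S.cp.A l x)) (S.X i m) (S.X i (m + 1)) x) := by
    intro x
    by_cases hx : x ∈ S.OM j m
    · have e1 : iw (S.OM j m) x = 1 := indicator_of_mem hx _
      simp only [e1, one_mul]
      have h4 := a_le S (i := i) hx
      calc S.Xr i m x = S.a i x * (S.Dl i m x / S.Dc i m x) := rfl
        _ ≤ (ENNReal.ofReal (S.cp.A i x) +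
            ∑ l ∈ Finset.Ioc j i, (ENNReal.ofReal S.cp.b0)⁻¹ * ENNReal.ofReal (S.cp.A l x)) *
            (S.Dl i m x / S.Dc i m x) := mul_le_mul' h4 le_rfl
        _ = _ := by
            rw [add_mul, Finset.sum_mul]
            refine congrArg₂ (· + ·) rfl (Finset.sum_congr rfl fun l _ => ?_)
            rw [mul_assoc]
            rfl
    · have e1 : iw (S.OM j m) x = 0 := indicator_of_notMem hx _
      rw [e1, zero_mul]
      exact zero_le
  have hsum : ∫⁻ x, iw (S.OM j m) x * S.Xr i m x ∂stdGaussian E ≤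
      c1 * (ENNReal.ofReal κ * Uq S j m m) +
      S.d * ((ENNReal.ofReal S.cp.b0)⁻¹ * (c1 * (ENNReal.ofReal κ * Uq S j m m))) := by
    refine (lintegral_mono hpt).trans ?_
    rw [lintegral_add_left (hXFm i), lintegral_finset_sum _ fun l _ => (hXFm l).const_mul _]
    refine add_le_add (hT i hji le_rfl) ?_
    calc ∑ l ∈ Finset.Ioc j i, ∫⁻ x, (ENNReal.ofReal S.cp.b0)⁻¹ * (iw (S.OM j m) x *
          XF (L S.f i) (fun x => ENNReal.ofReal (S.cp.A l x)) (S.X i m) (S.X i (m + 1)) x)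
          ∂stdGaussian E
        ≤ ∑ l ∈ Finset.Ioc j i, (ENNReal.ofReal S.cp.b0)⁻¹ *
            (c1 * (ENNReal.ofReal κ * Uq S j m m)) := by
          refine Finset.sum_le_sum fun l hl => ?_
          rw [Finset.mem_Ioc] at hl
          rw [lintegral_const_mul _ (hXFm l)]
          exact mul_le_mul' le_rfl (hT l hl.1 hl.2)
      _ = (Finset.Ioc j i).card * ((ENNReal.ofReal S.cp.b0)⁻¹ *
            (c1 * (ENNReal.ofReal κ * Uq S j m m))) := by
          rw [Finset.sum_const, nsmul_eq_mul]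
      _ ≤ _ := by
          refine mul_le_mul' ?_ le_rfl
          rw [Nat.card_Ioc]
          have : i - j ≤ S.d := by omega
          exact_mod_cast this
  have hU := Uq_le S hκ0 hκ (j := j) (m' := m) (m := m) hfar
  refine hsum.trans ?_
  have hbinv : (ENNReal.ofReal S.cp.b0)⁻¹ = ENNReal.ofReal (1 / S.cp.b0) := by
    rw [one_div, ENNReal.ofReal_inv_of_pos hb]
  have hR0 : 0 ≤ S.R := by linarith
  have hc1' : c1 = ENNReal.ofReal (34 * S.d * (Real.sqrt S.d * (S.el.ph m * S.R))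
      * (1 + S.R) ^ 2 * ((200000 * (1 + 2 * S.R) + 1) * 4)) := by
    rw [hc1]
    have e1 : ENNReal.ofReal (200000 * (1 + 2 * S.R)) + 1
        = ENNReal.ofReal (200000 * (1 + 2 * S.R) + 1) := by
      rw [ENNReal.ofReal_add (by positivity) zero_le_one, ENNReal.ofReal_one]
    have e2 : (1 + 3 : ℝ≥0∞) = ENNReal.ofReal 4 := by norm_num
    rw [e1, e2, ← ENNReal.ofReal_mul (by positivity), ← ENNReal.ofReal_mul (by positivity)]
  have hcd : (S.d : ℝ≥0∞) = ENNReal.ofReal (S.d : ℝ) := by simp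
  have e3 : c1 * (ENNReal.ofReal κ * Uq S j m m) +
      S.d * ((ENNReal.ofReal S.cp.b0)⁻¹ * (c1 * (ENNReal.ofReal κ * Uq S j m m)))
      = ENNReal.ofReal ((1 + S.d / S.cp.b0) * (34 * S.d * (Real.sqrt S.d * (S.el.ph m * S.R))
      * (1 + S.R) ^ 2 * ((200000 * (1 + 2 * S.R) + 1) * 4)) * κ) * Uq S j m m := by
    rw [ENNReal.ofReal_mul (by positivity), ENNReal.ofReal_mul (by positivity),
      ENNReal.ofReal_add zero_le_one (by positivity), ENNReal.ofReal_one, ← hc1', div_eq_mul_one_div,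
      ENNReal.ofReal_mul (Nat.cast_nonneg _), ← hcd, hbinv]
    ring
  rw [e3]
  calc ENNReal.ofReal ((1 + S.d / S.cp.b0) * (34 * S.d * (Real.sqrt S.d * (S.el.ph m * S.R))
      * (1 + S.R) ^ 2 * ((200000 * (1 + 2 * S.R) + 1) * 4)) * κ) * Uq S j m m
      ≤ ENNReal.ofReal ((1 + S.d / S.cp.b0) * (34 * S.d * (Real.sqrt S.d * (S.el.ph m * S.R))
      * (1 + S.R) ^ 2 * ((200000 * (1 + 2 * S.R) + 1) * 4)) * κ) * (2 * S.Un j m m) :=
        mul_le_mul' le_rfl hU
    _ = ENNReal.ofReal (cG3 S.d S.R S.cp.b0 κ * S.el.ph m) * S.Un j m m := by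
        have h2 : (2 : ℝ≥0∞) = ENNReal.ofReal 2 := by simp
        rw [← mul_assoc, h2, ← ENNReal.ofReal_mul (by positivity)]
        congr 2
        unfold cG3
        ring
    _ ≤ _ := mul_le_mul' le_rfl le_self_add

end Vale.Agent.P262.H706
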