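import Vale.Agent.P262.H837.ThrD
import Vale.Agent.P262.H59.Rim

/-!
# P262, milestone 2: dyadic layers of `|⟨b, y⟩|` and the sum over the layers

`lay 0 = {|t| < 2}`, `lay a = {2^a ≤ |t| < 2^(a+1)}`.  A layer costs `2^a`, its mass is
`≤ 2 exp (-4^a / 2)`; after Hölder the layer `a` contributes
`2^a * min (D^(α+β)) (D^α p_a^β)` and the sum over `a` is `≤ C_β √(1 - log D) D^(α+β)`.
-/

set_option linter.all false

open MeasureTheory ProbabilityTheory Set
open scoped ENNReal RealInnerProductSpace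
open Vale.Agent.P262.H395 (fib)

namespace Vale.Agent.P262.H706

/-! ### the layers -/

/-- dyadic layers of the line -/
def lay (a : ℕ) : Set ℝ := if a = 0 then {t | |t| < 2} else {t | 2 ^ a ≤ |t| ∧ |t| < 2 ^ (a + 1)}

lemma lay_zero : lay 0 = {t | |t| < 2} := by unfold lay; rw [if_pos rfl]

lemma lay_pos {a : ℕ} (ha : a ≠ 0) : lay a = {t | 2 ^ a ≤ |t| ∧ |t| < 2 ^ (a + 1)} := by
  unfold lay; rw [if_neg ha]

lemma measurableSet_lay (a : ℕ) : MeasurableSet (lay a) := by
  rcases eq_or_ne a 0 with rfl | ha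
  · rw [lay_zero]
    exact measurableSet_lt continuous_abs.measurable measurable_const
  · rw [lay_pos ha]
    exact (measurableSet_le measurable_const continuous_abs.measurable).inter
      (measurableSet_lt continuous_abs.measurable measurable_const)

lemma exists_lay (t : ℝ) : ∃ a, t ∈ lay a := by
  by_cases h : |t| < 2
  · exact ⟨0, by rw [lay_zero]; exact h⟩
  · push Not at h
    obtain ⟨n, hn⟩ := exists_nat_pow_near (x := |t|) (y := 2) (by linarith) (by norm_num)
    have hn0 : n ≠ 0 := by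
      rintro rfl
      have := hn.2
      norm_num at this
      linarith
    exact ⟨n, by rw [lay_pos hn0]; exact ⟨hn.1, hn.2⟩⟩

lemma lt_of_mem_lay {a : ℕ} {t : ℝ} (h : t ∈ lay a) : |t| < 2 ^ (a + 1) := by
  rcases eq_or_ne a 0 with rfl | ha
  · rw [lay_zero] at h
    have : |t| < 2 := h
    norm_num
    exact this
  · rw [lay_pos ha] at h
    exact h.2

/-- the size of the layer -/
lemma one_add_le_of_mem_lay {a : ℕ} {t : ℝ} (h : t ∈ lay a) : 1 + |t| ≤ 3 * 2 ^ a := by
  have h1 := lt_of_mem_lay h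
  have h2 : (1 : ℝ) ≤ 2 ^ a := one_le_pow₀ (by norm_num)
  rw [pow_succ] at h1
  linarith

/-- layers are determined by the size -/
lemma le_of_mem_lay {a : ℕ} {t : ℝ} (h : t ∈ lay a) : 2 ^ a ≤ 1 + |t| := by
  rcases eq_or_ne a 0 with rfl | ha
  · have := abs_nonneg t
    norm_num
  · rw [lay_pos ha] at h
    have := h.1
    linarith

lemma lay_disj {a a' : ℕ} {t : ℝ} (h : t ∈ lay a) (h' : t ∈ lay a') : a = a' := by
  by_contra hne
  wlog hlt : a < a' generalizing a a'
  · exact this h' h (Ne.symm hne) (by omega)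
  have h1 := lt_of_mem_lay h
  rw [lay_pos (by omega)] at h'
  have h2 := h'.1
  have h3 : (2 : ℝ) ^ (a + 1) ≤ 2 ^ a' := pow_le_pow_right₀ (by norm_num) (by omega)
  linarith

/-- the layers are a partition -/
lemma tsum_lay (t : ℝ) (g : ℕ → ℝ≥0∞) {a : ℕ} (h : t ∈ lay a) :
    ∑' a, (lay a).indicator (fun _ => g a) t = g a := by
  rw [tsum_eq_single a]
  · rw [indicator_of_mem h]
  · intro a' ha'
    exact indicator_of_notMem (fun h' => ha' (lay_disj h' h)) _

lemma one_eq_tsum_lay (t : ℝ) : ∑' a, (lay a).indicator (1 : ℝ → ℝ≥0∞) t = 1 := by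
  obtain ⟨a, h⟩ := exists_lay t
  exact tsum_lay t (fun _ => 1) h

lemma gauss_lay_le (a : ℕ) : gaussianReal 0 1 (lay a) ≤ ENNReal.ofReal (2 * Real.exp (-4 ^ a / 2)) := by
  rcases eq_or_ne a 0 with rfl | ha
  · refine (prob_le_one).trans ?_
    rw [← ENNReal.ofReal_one]
    apply ENNReal.ofReal_le_ofReal
    have := Real.add_one_le_exp (-(4 : ℝ) ^ 0 / 2)
    norm_num at this ⊢
    linarith
  · rw [lay_pos ha]
    refine (H59.tail_two (t := (2 : ℝ) ^ a) (by positivity) (fun x hx => hx.1)).trans (le_of_eq ?_)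
    congr 3
    rw [← pow_mul, mul_comm a 2, pow_mul]
    norm_num

variable {E : Type*} [NormedAddCommGroup E] [InnerProductSpace ℝ E] [FiniteDimensional ℝ E]
  [MeasurableSpace E] [BorelSpace E]

/-- the mass of a layer at the label of a node below which `b` lives -/
lemma fib_lay_le {W : Submodule ℝ E} {b : E} (hb : ‖b‖ = 1) (hbW : b ∈ Wᗮ) (a : ℕ) (x : E) :
    fib W ({y : E | ⟪b, y⟫ ∈ lay a}.indicator 1) x ≤ ENNReal.ofReal (2 * Real.exp (-4 ^ a / 2)) := by
  rw [H837.fib_inner hbW hb (measurableSet_lay a) x]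
  exact gauss_lay_le a

/-! ### the sum over the layers -/

lemma four_le_four_pow_mul (a : ℕ) : (2 : ℝ) ^ a * 2 ^ a = 4 ^ a := by
  rw [← mul_pow]; norm_num

/-- real form -/
lemma term_le {β : ℝ} (hβ : 0 < β) {D : ℝ} (hD : 0 < D) (hD1 : D ≤ 1) {p : ℝ} (hp0 : 0 ≤ p) {a : ℕ}
    (hp : p ≤ 2 * Real.exp (-4 ^ a / 8)) (ha : 32 * (1 - Real.log D) < 4 ^ a) :
    2 ^ a * (p / D) ^ β ≤ 16 / β * (1 / 2) ^ a := by
  have hl : Real.log D ≤ 0 := Real.log_nonpos hD.le hD1
  have h1 : p / D ≤ Real.exp (-4 ^ a / 16) := by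
    rw [div_le_iff₀ hD]
    calc p ≤ 2 * Real.exp (-4 ^ a / 8) := hp
      _ = 2 * (Real.exp (-4 ^ a / 16) * Real.exp (-4 ^ a / 16)) := by
          rw [← Real.exp_add]; congr 2; ring
      _ ≤ Real.exp (-4 ^ a / 16) * D := by
          have h2 : Real.exp (-4 ^ a / 16) ≤ Real.exp (-2 + Real.log D) := by
            apply Real.exp_le_exp.mpr
            linarith
          rw [Real.exp_add, Real.exp_log hD] at h2
          have h3 : Real.exp (-2) ≤ 1 / 2 := by
            rw [Real.exp_neg, one_div]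
            apply inv_anti₀ (by norm_num)
            have := Real.add_one_le_exp (2 : ℝ)
            linarith
          have h4 := Real.exp_pos (-(4 : ℝ) ^ a / 16)
          have h5 : Real.exp (-4 ^ a / 16) ≤ D / 2 := by
            calc _ ≤ Real.exp (-2) * D := h2
              _ ≤ 1 / 2 * D := by gcongr
              _ = D / 2 := by ring
          calc 2 * (Real.exp (-4 ^ a / 16) * Real.exp (-4 ^ a / 16))
              = Real.exp (-4 ^ a / 16) * (2 * Real.exp (-4 ^ a / 16)) := by ring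
            _ ≤ Real.exp (-4 ^ a / 16) * D := by
                apply mul_le_mul_of_nonneg_left _ h4.le
                linarith
  have h2 : (p / D) ^ β ≤ Real.exp (-(β * 4 ^ a / 16)) := by
    calc (p / D) ^ β ≤ Real.exp (-4 ^ a / 16) ^ β := Real.rpow_le_rpow (by positivity) h1 hβ.le
      _ = Real.exp (-(β * 4 ^ a / 16)) := by
          rw [← Real.exp_mul]; congr 1; ring
  have h3 : Real.exp (-(β * 4 ^ a / 16)) ≤ 16 / (β * 4 ^ a) := by
    have h4 : 0 < β * 4 ^ a / 16 := by positivity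
    have h5 := Real.add_one_le_exp (β * 4 ^ a / 16)
    rw [Real.exp_neg]
    have h6 : 16 / (β * 4 ^ a) = (β * 4 ^ a / 16)⁻¹ := by rw [inv_div]
    rw [h6]
    apply inv_anti₀ h4
    linarith
  calc 2 ^ a * (p / D) ^ β ≤ 2 ^ a * (16 / (β * 4 ^ a)) := by
        have := h2.trans h3
        gcongr
    _ = 16 / β * (1 / 2) ^ a := by
        rw [← four_le_four_pow_mul, one_div, inv_pow]
        field_simp

/-- constant of the sum over the layers -/
noncomputable def CLay (β : ℝ) : ℝ := 16 + 32 / β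

lemma CLay_pos {β : ℝ} (hβ : 0 < β) : 0 < CLay β := by unfold CLay; positivity

lemma sum_two_pow_le (n : ℕ) {L : ℝ} (hL : 1 ≤ L) :
    ∑ a ∈ (Finset.range n).filter (fun a => (4 : ℝ) ^ a ≤ 64 * L ^ 2), (2 : ℝ) ^ a ≤ 16 * L := by
  induction n with
  | zero => simp; linarith
  | succ n ih =>
    by_cases h : (4 : ℝ) ^ n ≤ 64 * L ^ 2
    · have h1 : (2 : ℝ) ^ n ≤ 8 * L := by
        have h2 : ((2 : ℝ) ^ n) ^ 2 ≤ (8 * L) ^ 2 := by
          rw [sq, four_le_four_pow_mul]; nlinarith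
        exact abs_le_of_sq_le_sq' h2 (by positivity) |>.2
      calc ∑ a ∈ (Finset.range (n + 1)).filter (fun a => (4 : ℝ) ^ a ≤ 64 * L ^ 2), (2 : ℝ) ^ a
          ≤ ∑ a ∈ Finset.range (n + 1), (2 : ℝ) ^ a :=
            Finset.sum_le_sum_of_subset_of_nonneg (Finset.filter_subset _ _)
              (fun _ _ _ => by positivity)
        _ = 2 ^ (n + 1) - 1 := by
            rw [geom_sum_eq (by norm_num)]; norm_num
        _ ≤ 16 * L := by rw [pow_succ]; linarith
    · rw [Finset.range_add_one, Finset.filter_insert, if_neg h]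
      exact ih

/-- **the sum over the layers** -/
theorem layer_sum {α β : ℝ} (hα : 0 ≤ α) (hβ : 0 < β) {D : ℝ≥0∞} (hD0 : D ≠ 0) (hD1 : D ≤ 1)
    {p : ℕ → ℝ≥0∞} (hp : ∀ a, p a ≤ ENNReal.ofReal (2 * Real.exp (-4 ^ a / 8))) :
    ∑' a, ENNReal.ofReal (2 ^ a) * min (D ^ (α + β)) (D ^ α * p a ^ β) ≤
      ENNReal.ofReal (CLay β) *
        (D ^ (α + β) * ENNReal.ofReal (Real.sqrt (1 - Real.log D.toReal))) := by
  have hDt : D ≠ ⊤ := (hD1.trans_lt ENNReal.one_lt_top).ne
  set d : ℝ := D.toReal with hd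
  have hDd : D = ENNReal.ofReal d := (ENNReal.ofReal_toReal hDt).symm
  have hd0 : 0 < d := ENNReal.toReal_pos hD0 hDt
  have hd1 : d ≤ 1 := by
    have := (ENNReal.toReal_le_toReal hDt ENNReal.one_ne_top).2 hD1
    simpa using this
  set L : ℝ := Real.sqrt (1 - Real.log d) with hL
  have hlog : Real.log d ≤ 0 := Real.log_nonpos hd0.le hd1
  have hL1 : 1 ≤ L := Real.one_le_sqrt.mpr (by linarith)
  have hLL : L ^ 2 = 1 - Real.log d := Real.sq_sqrt (by linarith)
  have hβ32 : 0 < 32 / β := by positivity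
  rw [← mul_assoc]
  refine ENNReal.tsum_le_of_sum_range_le fun n => ?_
  -- each term
  have hterm : ∀ a, ENNReal.ofReal (2 ^ a) * min (D ^ (α + β)) (D ^ α * p a ^ β) ≤
      D ^ (α + β) * ENNReal.ofReal (if (4 : ℝ) ^ a ≤ 64 * L ^ 2 then 2 ^ a
        else 16 / β * (1 / 2) ^ a) := by
    intro a
    split_ifs with h
    · rw [mul_comm]
      exact mul_le_mul_left (min_le_left _ _) _
    · push Not at h
      have hpt : p a ≠ ⊤ := ((hp a).trans_lt ENNReal.ofReal_lt_top).ne
      set q : ℝ := (p a).toReal with hq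
      have hpq : p a = ENNReal.ofReal q := (ENNReal.ofReal_toReal hpt).symm
      have hq0 : 0 ≤ q := ENNReal.toReal_nonneg
      have hq1 : q ≤ 2 * Real.exp (-4 ^ a / 8) := by
        have := ENNReal.toReal_mono ENNReal.ofReal_ne_top (hp a)
        rwa [ENNReal.toReal_ofReal (by positivity)] at this
      have h1 := term_le hβ hd0 hd1 hq0 hq1 (by rw [← hLL]; nlinarith)
      calc ENNReal.ofReal (2 ^ a) * min (D ^ (α + β)) (D ^ α * p a ^ β)
          ≤ ENNReal.ofReal (2 ^ a) * (D ^ α * p a ^ β) := by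
            gcongr
            exact min_le_right _ _
        _ = D ^ (α + β) * ENNReal.ofReal (2 ^ a * (q / d) ^ β) := by
            rw [hDd, hpq, ENNReal.ofReal_rpow_of_pos hd0, ENNReal.ofReal_rpow_of_pos hd0,
              ENNReal.ofReal_rpow_of_nonneg hq0 hβ.le, ← ENNReal.ofReal_mul (by positivity),
              ← ENNReal.ofReal_mul (by positivity), ← ENNReal.ofReal_mul (by positivity)]
            congr 1
            rw [Real.rpow_add hd0, Real.div_rpow hq0 hd0.le]
            have : d ^ β ≠ 0 := (Real.rpow_pos_of_pos hd0 _).ne'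
            field_simp
        _ ≤ _ := by gcongr
  calc ∑ a ∈ Finset.range n, ENNReal.ofReal (2 ^ a) * min (D ^ (α + β)) (D ^ α * p a ^ β)
      ≤ ∑ a ∈ Finset.range n, D ^ (α + β) * ENNReal.ofReal (if (4 : ℝ) ^ a ≤ 64 * L ^ 2 then 2 ^ a
        else 16 / β * (1 / 2) ^ a) := Finset.sum_le_sum fun a _ => hterm a
    _ = D ^ (α + β) * ENNReal.ofReal (∑ a ∈ Finset.range n,
        (if (4 : ℝ) ^ a ≤ 64 * L ^ 2 then 2 ^ a else 16 / β * (1 / 2) ^ a)) := by
        rw [← Finset.mul_sum, ENNReal.ofReal_sum_of_nonneg]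
        intro a _
        split_ifs <;> positivity
    _ ≤ D ^ (α + β) * ENNReal.ofReal (CLay β * L) := by
        gcongr
        have h1 : ∑ a ∈ Finset.range n,
            (if (4 : ℝ) ^ a ≤ 64 * L ^ 2 then (2 : ℝ) ^ a else 16 / β * (1 / 2) ^ a) ≤
            ∑ a ∈ (Finset.range n).filter (fun a => (4 : ℝ) ^ a ≤ 64 * L ^ 2), (2 : ℝ) ^ a +
            ∑ a ∈ Finset.range n, 16 / β * (1 / 2) ^ a := by
          rw [Finset.sum_filter, ← Finset.sum_add_distrib]
          refine Finset.sum_le_sum fun a _ => ?_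
          have : 0 ≤ 16 / β * (1 / 2 : ℝ) ^ a := by positivity
          split_ifs <;> linarith
        have h2 : ∑ a ∈ Finset.range n, 16 / β * (1 / 2 : ℝ) ^ a ≤ 32 / β := by
          rw [← Finset.mul_sum]
          have h3 : ∑ a ∈ Finset.range n, (1 / 2 : ℝ) ^ a ≤ 2 := by
            rw [geom_sum_eq (by norm_num)]
            have : (0 : ℝ) ≤ (1 / 2) ^ n := by positivity
            rw [div_le_iff_of_neg (by norm_num)]
            linarith
          have h4 : 0 < 16 / β := by positivity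
          calc 16 / β * ∑ a ∈ Finset.range n, (1 / 2 : ℝ) ^ a ≤ 16 / β * 2 := by gcongr
            _ = 32 / β := by ring
        have h3 := sum_two_pow_le n hL1
        have h4 : 32 / β ≤ 32 / β * L := le_mul_of_one_le_right hβ32.le hL1
        unfold CLay
        calc _ ≤ 16 * L + 32 / β := h1.trans (add_le_add h3 h2)
          _ ≤ 16 * L + 32 / β * L := by linarith
          _ = _ := by ring
    _ = ENNReal.ofReal (CLay β) * D ^ (α + β) * ENNReal.ofReal L := by
        rw [ENNReal.ofReal_mul (CLay_pos hβ).le]; ring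

/-- `√(1 - log D) ≤ 2 * 2 ^ c` above the threshold of the class `c` -/
lemma sqrt_log_le {c : ℕ} {D : ℝ≥0∞} (hD1 : D ≤ 1)
    (h : ENNReal.ofReal (Real.exp (1 - 4 ^ c) / 10) ≤ D) :
    ENNReal.ofReal (Real.sqrt (1 - Real.log D.toReal)) ≤ 2 * 2 ^ c := by
  have hDt : D ≠ ⊤ := (hD1.trans_lt ENNReal.one_lt_top).ne
  have h1 : Real.exp (1 - 4 ^ c) / 10 ≤ D.toReal := by
    have := ENNReal.toReal_mono hDt h
    rwa [ENNReal.toReal_ofReal (by positivity)] at this
  have h2 : Real.log (Real.exp (1 - 4 ^ c) / 10) ≤ Real.log D.toReal :=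
    Real.log_le_log (by positivity) h1
  rw [Real.log_div (Real.exp_pos _).ne' (by norm_num), Real.log_exp] at h2
  have h3 : Real.log 10 ≤ 3 := by
    rw [Real.log_le_iff_le_exp (by norm_num)]
    have h4 := Real.exp_one_gt_d9
    have h5 : Real.exp 3 = Real.exp 1 ^ 3 := by rw [← Real.exp_nat_mul]; norm_num
    rw [h5]
    calc (10 : ℝ) ≤ 2.7 ^ 3 := by norm_num
      _ ≤ Real.exp 1 ^ 3 := by gcongr; linarith
  have h4 : (1 : ℝ) ≤ 4 ^ c := one_le_pow₀ (by norm_num)
  have h5 : Real.sqrt (1 - Real.log D.toReal) ≤ 2 * 2 ^ c := by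
    apply Real.sqrt_le_iff.mpr
    refine ⟨by positivity, ?_⟩
    have : (2 * (2 : ℝ) ^ c) ^ 2 = 4 * 4 ^ c := by
      rw [mul_pow, ← pow_mul, mul_comm c 2, pow_mul]; norm_num
    rw [this]
    linarith
  calc ENNReal.ofReal (Real.sqrt (1 - Real.log D.toReal)) ≤ ENNReal.ofReal (2 * 2 ^ c) :=
        ENNReal.ofReal_le_ofReal h5
    _ = 2 * 2 ^ c := by
        rw [ENNReal.ofReal_mul (by norm_num), ENNReal.ofReal_pow (by norm_num)]
        norm_num

/-- **the sum over the layers, above the threshold of the class `c`** -/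
theorem layer_sum_thr {α β : ℝ} (hα : 0 ≤ α) (hβ : 0 < β) {c : ℕ} {D : ℝ≥0∞} (hD1 : D ≤ 1)
    (h : ENNReal.ofReal (Real.exp (1 - 4 ^ c) / 10) ≤ D)
    {p : ℕ → ℝ≥0∞} (hp : ∀ a, p a ≤ ENNReal.ofReal (2 * Real.exp (-4 ^ a / 8))) :
    ∑' a, ENNReal.ofReal (2 ^ a) * min (D ^ (α + β)) (D ^ α * p a ^ β) ≤
      ENNReal.ofReal (2 * CLay β) * (D ^ (α + β) * 2 ^ c) := by
  have hD0 : D ≠ 0 := by
    rintro rfl
    rw [nonpos_iff_eq_zero, ENNReal.ofReal_eq_zero] at h
    have := Real.exp_pos (1 - 4 ^ c)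
    linarith
  refine (layer_sum hα hβ hD0 hD1 hp).trans ?_
  calc ENNReal.ofReal (CLay β) *
        (D ^ (α + β) * ENNReal.ofReal (Real.sqrt (1 - Real.log D.toReal)))
      ≤ ENNReal.ofReal (CLay β) * (D ^ (α + β) * (2 * 2 ^ c)) := by
        gcongr
        exact sqrt_log_le hD1 h
    _ = _ := by
        rw [ENNReal.ofReal_mul (by norm_num), ENNReal.ofReal_ofNat]
        ring

lemma lay_mass_hyp (a : ℕ) : ENNReal.ofReal (2 * Real.exp (-4 ^ a / 2)) ≤
    ENNReal.ofReal (2 * Real.exp (-4 ^ a / 8)) := by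
  apply ENNReal.ofReal_le_ofReal
  have h : (0 : ℝ) < 4 ^ a := by positivity
  refine mul_le_mul_of_nonneg_left (Real.exp_le_exp.mpr ?_) (by norm_num)
  linarith

end Vale.Agent.P262.H706
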