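import Vale.Agent.P262.H837.ThrF
import Vale.Agent.P262.H59.Rim

/-!
# P262, milestone 2: the layer cake functional `Psi s (2 y) ≤ C y^s √(1 - log y)`
-/

set_option linter.all false

open MeasureTheory ProbabilityTheory Set
open scoped ENNReal RealInnerProductSpace

namespace Vale.Agent.P262.H706

open Vale.Agent.P262.H837

/-- absolute constant of `Psi_two_le` -/
noncomputable def CPs (s : ℝ) : ℝ := 2 * (3 + 1 / (1 - (2 / 3) ^ s))

lemma pow_lt {s : ℝ} (hs : 0 < s) : ((2 : ℝ) / 3) ^ s < 1 :=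
  Real.rpow_lt_one (by norm_num) (by norm_num) hs

lemma CPs_pos {s : ℝ} (hs : 0 < s) : 0 < CPs s := by
  have := pow_lt hs
  have : 0 < 1 / (1 - ((2 : ℝ) / 3) ^ s) := by apply one_div_pos.mpr; linarith
  unfold CPs
  positivity

lemma Psi_le_of_pg {s : ℝ} (hs : 0 < s) {D : ℝ≥0∞} {n : ℕ} (h : pg n ≤ D) :
    Psi s D ≤ ((n : ℝ≥0∞) + ENNReal.ofReal (1 / (1 - (2 / 3) ^ s))) * D ^ s := by
  unfold Psi
  rw [← ENNReal.summable.sum_add_tsum_nat_add' (k := n)]
  have h1 : ∑ i ∈ Finset.range n, min D (pg i) ^ s ≤ (n : ℝ≥0∞) * D ^ s := by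
    calc ∑ i ∈ Finset.range n, min D (pg i) ^ s ≤ ∑ i ∈ Finset.range n, D ^ s :=
          Finset.sum_le_sum fun i _ => ENNReal.rpow_le_rpow (min_le_left _ _) hs.le
      _ = (n : ℝ≥0∞) * D ^ s := by rw [Finset.sum_const, Finset.card_range, nsmul_eq_mul]
  have h2 : ∑' i : ℕ, min D (pg (i + n)) ^ s
      ≤ ENNReal.ofReal (1 / (1 - (2 / 3) ^ s)) * D ^ s := by
    have e0 : ∀ i : ℕ, min D (pg (i + n)) ^ s ≤ ENNReal.ofReal ((2 / 3) ^ s) ^ i * D ^ s := by
      intro i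
      calc min D (pg (i + n)) ^ s ≤ (ENNReal.ofReal (2 / 3) ^ i * D) ^ s := by
            apply ENNReal.rpow_le_rpow _ hs.le
            refine (min_le_right _ _).trans ?_
            rw [add_comm]
            exact (pg_le_geom n i).trans (mul_le_mul_right h _)
        _ = ENNReal.ofReal ((2 / 3) ^ s) ^ i * D ^ s := by
            rw [ENNReal.mul_rpow_of_nonneg _ _ hs.le, ← ENNReal.rpow_natCast, ← ENNReal.rpow_mul,
              mul_comm (i : ℝ) s, ENNReal.rpow_mul, ENNReal.ofReal_rpow_of_nonneg (by norm_num) hs.le,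
              ENNReal.rpow_natCast]
    calc ∑' i : ℕ, min D (pg (i + n)) ^ s
        ≤ ∑' i : ℕ, ENNReal.ofReal ((2 / 3) ^ s) ^ i * D ^ s := ENNReal.tsum_le_tsum e0
      _ = (1 - ENNReal.ofReal ((2 / 3) ^ s))⁻¹ * D ^ s := by
          rw [ENNReal.tsum_mul_right, ENNReal.tsum_geometric]
      _ = ENNReal.ofReal (1 / (1 - (2 / 3) ^ s)) * D ^ s := by
          congr 1
          have h3 := pow_lt hs
          have h4 : (0 : ℝ) ≤ (2 / 3) ^ s := by positivity
          rw [← ENNReal.ofReal_one, ← ENNReal.ofReal_sub _ h4,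
            ← ENNReal.ofReal_inv_of_pos (by linarith), one_div]
  calc _ ≤ (n : ℝ≥0∞) * D ^ s + ENNReal.ofReal (1 / (1 - (2 / 3) ^ s)) * D ^ s := add_le_add h1 h2
    _ = _ := by ring

/-- **the layer cake functional**: one square root of the logarithm -/
theorem Psi_two_le {s : ℝ} (hs : 0 < s) (hs1 : s ≤ 1) {Y : ℝ} (hY : 0 < Y) (hY1 : Y ≤ 1) :
    Psi s (ENNReal.ofReal (2 * Y))
      ≤ ENNReal.ofReal (CPs s) * (ENNReal.ofReal Y ^ s * ENNReal.ofReal (Real.sqrt (1 - Real.log Y))) := by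
  set L : ℝ := -Real.log Y with hL
  have hL0 : 0 ≤ L := by
    have := Real.log_nonpos hY.le hY1
    linarith
  set t : ℝ := Real.sqrt (2 * L) with ht
  have ht0 : 0 ≤ t := Real.sqrt_nonneg _
  have htt : t ^ 2 = 2 * L := Real.sq_sqrt (by positivity)
  set n : ℕ := ⌈t⌉₊ with hn
  have htn : t ≤ n := Nat.le_ceil t
  have hnt : (n : ℝ) ≤ t + 1 := (Nat.ceil_lt_add_one ht0).le
  have hpg : pg n ≤ ENNReal.ofReal (2 * Y) := by
    refine (H59.tail_two (t := t) ht0 (S := {y : ℝ | (n : ℝ) < |y|}) ?_).trans ?_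
    · intro x hx
      have : (n : ℝ) < |x| := hx
      linarith
    · apply ENNReal.ofReal_le_ofReal
      have e1 : -t ^ 2 / 2 = Real.log Y := by rw [htt, hL]; ring
      rw [e1, Real.exp_log hY]
  have h1 := Psi_le_of_pg hs hpg
  set G : ℝ := 1 / (1 - (2 / 3) ^ s) with hG
  have hG0 : 0 < G := by
    have := pow_lt hs
    apply one_div_pos.mpr; linarith
  set Q : ℝ := Real.sqrt (1 - Real.log Y) with hQ
  have hQ1 : 1 ≤ Q := by
    rw [hQ]
    apply Real.one_le_sqrt.mpr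
    linarith
  have htQ : t ≤ 2 * Q := by
    rw [ht, hQ]
    apply Real.sqrt_le_iff.mpr
    constructor
    · positivity
    · rw [mul_pow, Real.sq_sqrt (by linarith)]
      linarith
  have hnG : (n : ℝ) + G ≤ (3 + G) * Q := by nlinarith
  refine h1.trans ?_
  have e2 : (n : ℝ≥0∞) + ENNReal.ofReal G = ENNReal.ofReal ((n : ℝ) + G) := by
    rw [ENNReal.ofReal_add (Nat.cast_nonneg _) hG0.le, ENNReal.ofReal_natCast]
  rw [e2]
  have e3 : ENNReal.ofReal (2 * Y) ^ s ≤ 2 * ENNReal.ofReal Y ^ s := by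
    rw [ENNReal.ofReal_mul (by norm_num), ENNReal.mul_rpow_of_nonneg _ _ hs.le]
    apply mul_le_mul_left
    rw [ENNReal.ofReal_ofNat]
    calc (2 : ℝ≥0∞) ^ s ≤ 2 ^ (1 : ℝ) := ENNReal.rpow_le_rpow_of_exponent_le (by norm_num) hs1
      _ = 2 := ENNReal.rpow_one _
  calc ENNReal.ofReal ((n : ℝ) + G) * ENNReal.ofReal (2 * Y) ^ s
      ≤ ENNReal.ofReal ((3 + G) * Q) * (2 * ENNReal.ofReal Y ^ s) :=
        mul_le_mul' (ENNReal.ofReal_le_ofReal hnG) e3
    _ = ENNReal.ofReal (CPs s) * (ENNReal.ofReal Y ^ s * ENNReal.ofReal Q) := by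
        rw [ENNReal.ofReal_mul (by positivity)]
        unfold CPs
        rw [ENNReal.ofReal_mul (by norm_num : (0 : ℝ) ≤ 2), ENNReal.ofReal_ofNat, ← hG]
        ring

end Vale.Agent.P262.H706
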