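import Vale.Agent.P262.M2.SumRot2
import Vale.Agent.P262.M2.Nodes
import Vale.Agent.P262.H706.PsiB

/-!
# P262, milestone 2: the throughput (THRp), sum over the lists of classes

`OneL C1` is the throughput of ONE list of nodes below the rotating node; `thrp_lists` adds the
lists and averages over the label of the parent.
-/

set_option linter.all false

open MeasureTheory ProbabilityTheory Set
open scoped ENNReal RealInnerProductSpace
open Vale.Agent.P262.H118 (Iv st en ON rotE tau wd wrd Mg Piece K2 El2 paths Cl cl_paths mem_paths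
  iv_st)
open Vale.Agent.P262.H274 (Slow Cost)
open Vale.Agent.P262.H395 (fib mix Inv inv_fib measurable_fib fib_mono)
open Vale.Agent.P262.H395.Tree (InvN)
open Vale.Agent.P262.H44 (InvS)
open Vale.Agent.P262.H493 (star)
open Vale.Agent.P262.H837 (Psi)
open Vale.Agent.P262.H706 (CPs CPs_pos Psi_two_le)

namespace Vale.Agent.P262.M2.Sys

variable {E : Type*} [NormedAddCommGroup E] [InnerProductSpace ℝ E] [FiniteDimensional ℝ E]
  [MeasurableSpace E] [BorelSpace E] {S : Sys E}

/-! ### lists of classes -/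

/-- lists of length `n` with entries `≤ cm` -/
def lst (cm : ℕ) : ℕ → Finset (List ℕ)
  | 0 => {[]}
  | n + 1 => (Finset.range (cm + 1)).biUnion fun c => (lst cm n).image (List.cons c)

lemma mem_lst {cm n : ℕ} {u : List ℕ} : u ∈ lst cm n ↔ u.length = n ∧ ∀ a ∈ u, a ≤ cm := by
  induction n generalizing u with
  | zero =>
    simp only [lst, Finset.mem_singleton, List.length_eq_zero_iff]
    constructor
    · rintro rfl; simp
    · exact fun h => h.1
  | succ n ih =>
    simp only [lst, Finset.mem_biUnion, Finset.mem_range, Finset.mem_image]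
    constructor
    · rintro ⟨c, hc, v, hv, rfl⟩
      rw [ih] at hv
      refine ⟨by simp [hv.1], fun a ha => ?_⟩
      rw [List.mem_cons] at ha
      rcases ha with rfl | ha
      · omega
      · exact hv.2 a ha
    · rintro ⟨h1, h2⟩
      rcases u with _ | ⟨c, v⟩
      · simp at h1
      · refine ⟨c, ?_, v, ih.2 ⟨by simpa using h1, fun a ha => h2 a (by simp [ha])⟩, rfl⟩
        have := h2 c (by simp)
        omega

lemma card_lst (cm n : ℕ) : (lst cm n).card ≤ (cm + 1) ^ n := by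
  induction n with
  | zero => simp [lst]
  | succ n ih =>
    calc (lst cm (n + 1)).card ≤ ∑ c ∈ Finset.range (cm + 1), ((lst cm n).image (List.cons c)).card :=
          Finset.card_biUnion_le
      _ ≤ ∑ c ∈ Finset.range (cm + 1), (cm + 1) ^ n :=
          Finset.sum_le_sum fun c _ => Finset.card_image_le.trans ih
      _ = (cm + 1) ^ (n + 1) := by
          rw [Finset.sum_const, Finset.card_range, smul_eq_mul, pow_succ, mul_comm]

variable (S) in
/-- no proper prefix of the list `u` of nodes below `q` is a leaf -/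
def GoodL (q u : List ℕ) (m : ℕ) : Prop := ∀ v w, u = v ++ w → v ≠ [] → ¬ S.Leaf (w ++ q) m

/-! ### one list -/

variable (S) in
/-- **throughput of one list**: `u` = classes below the rotating node `c :: p` -/
def OneL (C1 : ℝ) : Prop := ∀ m < S.mT, S.mv.IsRot m → ∀ c p, S.mv.jj m = c :: p →
  ∀ u : List ℕ, (∀ a ∈ u, a ≤ S.cm) → S.GoodL (c :: p) u m → ∀ x,
    fib (S.W p m) (S.xd (u ++ c :: p) m) x ≤
      ENNReal.ofReal (C1 * ((u.length : ℝ) + 2) ^ 2 * S.mv.ph m *
        (S.kap ^ (Module.finrank ℝ (S.W (u ++ c :: p) m) - Module.finrank ℝ (S.W p m))) ^ S.th) *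
        (S.As S.th p m x * Psi (1 - S.th) (2 * S.De p m x))

/-! ### the path of a label -/

lemma mem_alv_good {m j n : ℕ} {q : List ℕ} {x : E}
    (hthru : S.nd m x j = q)
    (hal : ∀ k, j ≤ k → k < j + n → ¬ S.Leaf (S.nd m x k) m) :
    ∃ u ∈ lst S.cm n, S.nd m x (j + n) = u ++ q ∧ S.GoodL q u m := by
  induction n with
  | zero =>
    refine ⟨[], by simp [lst], by simpa using hthru, ?_⟩
    intro v w h hv
    rcases v with _ | ⟨a, v⟩
    · exact absurd rfl hv
    · simp at h
  | succ n ih =>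
    obtain ⟨u, hu, h1, h2⟩ := ih fun k hk hk' => hal k hk (by omega)
    refine ⟨S.kl (S.nd m x (j + n)) m x :: u, ?_, ?_, ?_⟩
    · rw [mem_lst] at hu ⊢
      refine ⟨by simp [hu.1], fun a ha => ?_⟩
      rw [List.mem_cons] at ha
      rcases ha with rfl | ha
      · exact kl_le_cm _ _ _
      · exact hu.2 a ha
    · rw [← add_assoc, nd_succ, h1]; rfl
    · intro v w h hv
      rcases v with _ | ⟨a, v⟩
      · exact absurd rfl hv
      · rw [List.cons_append, List.cons.injEq] at h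
        rcases v with _ | ⟨b, v⟩
        · rw [List.nil_append] at h
          rw [← h.2, ← h1]
          exact hal (j + n) (Nat.le_add_right _ _) (by omega)
        · exact h2 _ w h.2 (by simp)

/-! ### invariance of the set of labels through the rotating node -/

lemma nd_of_thru_L {m j : ℕ} {c : ℕ} {p : List ℕ} {x : E} (h : S.nd m x (j + 1) = c :: p) :
    S.nd m x j = p ∧ S.kl p m x = c := by
  rw [nd_succ, List.cons.injEq] at h
  obtain ⟨h1, h2⟩ := h
  exact ⟨h2, by rw [← h2]; exact h1⟩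

lemma thru_OL_add_L {m : ℕ} (hm : S.mv.tm m < S.T) {j c : ℕ} {p : List ℕ}
    (hj : S.mv.jj m = c :: p) {x w : E} (hw : w ∈ (S.W p m)ᗮ)
    (h : x ∈ S.thru (j + 1) m ∩ S.OL (j + 1) m) :
    x + w ∈ S.thru (j + 1) m ∩ S.OL (j + 1) m := by
  obtain ⟨h1, h2⟩ := h
  have h1' : S.nd m x (j + 1) = c :: p := by rw [← hj]; exact h1
  obtain ⟨h3, h4⟩ := nd_of_thru_L h1'
  have hw' : w ∈ (S.W (S.nd m x j) m)ᗮ := by rw [h3]; exact hw
  have h5 := nd_inv hm x j hw'
  refine ⟨?_, ?_⟩
  · show S.nd m (x + w) (j + 1) = S.mv.jj m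
    rw [h5 (j + 1) le_rfl]; exact h1
  · intro i hi
    rw [h5 i (by omega)]
    refine (om_inv _ hm x w ?_).2 (h2 i hi)
    exact Submodule.orthogonal_le (S.W_mono (nd_suffix_nd m x (by omega)) m) hw'

lemma thru_OL_inv_L {m : ℕ} (hm : S.mv.tm m < S.T) {j c : ℕ} {p : List ℕ}
    (hj : S.mv.jj m = c :: p) : Inv (S.W p m) (iw (S.thru (j + 1) m ∩ S.OL (j + 1) m)) := by
  intro x w hw
  unfold iw
  by_cases h : x ∈ S.thru (j + 1) m ∩ S.OL (j + 1) m
  · rw [indicator_of_mem h, indicator_of_mem (thru_OL_add_L hm hj hw h)]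
    rfl
  · have h' : x + w ∉ S.thru (j + 1) m ∩ S.OL (j + 1) m := by
      intro h1
      apply h
      have h2 := thru_OL_add_L hm hj (Submodule.neg_mem _ hw) h1
      rwa [add_neg_cancel_right] at h2
    rw [indicator_of_notMem h, indicator_of_notMem h']

lemma measurableSet_thru_L (j m : ℕ) : MeasurableSet (S.thru j m) := by
  classical
  have h := measurableSet_nd (S := S) m j (s := fun r => if r = S.mv.jj m then univ else ∅)
    (fun r => by
      split_ifs
      · exact MeasurableSet.univ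
      · exact MeasurableSet.empty)
  have e : S.thru j m = {x | x ∈ (fun r => if r = S.mv.jj m then (univ : Set E) else ∅)
      (S.nd m x j)} := by
    ext x
    simp only [mem_setOf_eq, thru]
    split_ifs with h
    · simp [h]
    · simp [h]
  rw [e]
  exact h

lemma measurable_iw_L {s : Set E} (hs : MeasurableSet s) : Measurable (iw s) :=
  measurable_one.indicator hs

lemma xd_meas_L (p : List ℕ) (m : ℕ) : Measurable (S.xd p m) := by
  unfold xd
  exact (((S.A_meas p m).div ((S.A_meas p m).max (S.Dc_meas p m))).pow_const _).mul (S.Dl_meas p m)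

lemma sl_meas_L (p : List ℕ) (m : ℕ) : Measurable (S.sl p m) := by
  unfold sl
  exact Measurable.ite (measurableSet_kl p m 0) measurable_const
    (ENNReal.measurable_ofReal.comp (Real.continuous_sqrt.measurable.comp
      (measurable_const.sub (Real.measurable_log.comp (Db_meas p m).ennreal_toReal))))

/-! ### the pointwise sum and the tower -/

open Classical in
/-- **throughput at level `i`, split into the lists of classes and averaged over the label of the
parent of the rotating node** -/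
theorem thq_le_lists {m : ℕ} (hm : S.mv.tm m < S.T) {c : ℕ} {p : List ℕ}
    (hj : S.mv.jj m = c :: p) (n : ℕ) {al : Set E}
    (hal : ∀ x ∈ al, ∀ k, p.length + 1 ≤ k → k < p.length + 1 + n → ¬ S.Leaf (S.nd m x k) m) :
    ∫⁻ x, iw (S.thru (p.length + 1) m ∩ S.OL (p.length + 1) m ∩ al) x *
        S.xd (S.nd m x (p.length + 1 + n)) m x ∂stdGaussian E ≤
      ∑ u ∈ (lst S.cm n).filter fun u => S.GoodL (c :: p) u m,
        ∫⁻ x, iw (S.thru (p.length + 1) m ∩ S.OL (p.length + 1) m) x *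
          fib (S.W p m) (S.xd (u ++ c :: p) m) x ∂stdGaussian E := by
  set B := S.thru (p.length + 1) m ∩ S.OL (p.length + 1) m with hB
  have hBm : MeasurableSet B := (measurableSet_thru_L _ _).inter (measurableSet_OL _ _)
  have e1 : ∀ u : List ℕ, ∫⁻ x, iw B x * fib (S.W p m) (S.xd (u ++ c :: p) m) x ∂stdGaussian E =
      ∫⁻ x, iw B x * S.xd (u ++ c :: p) m x ∂stdGaussian E := fun u =>
    H395.lintegral_mul_fib (thru_OL_inv_L hm hj) (measurable_iw_L hBm) (xd_meas_L _ _)
  simp_rw [e1]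
  rw [← lintegral_finsetSum (f := fun u x => iw B x * S.xd (u ++ c :: p) m x) _
    fun u _ => (measurable_iw_L hBm).mul (xd_meas_L _ _)]
  refine lintegral_mono fun x => ?_
  by_cases hx : x ∈ B ∩ al
  · have h1 : S.nd m x (p.length + 1) = c :: p := by rw [← hj]; exact hx.1.1
    obtain ⟨u, hu, h2, h3⟩ := mem_alv_good (n := n) h1 (hal x hx.2)
    have h4 : u ∈ (lst S.cm n).filter fun u => S.GoodL (c :: p) u m :=
      Finset.mem_filter.2 ⟨hu, h3⟩
    refine le_trans ?_ (Finset.single_le_sum (f := fun u => iw B x * S.xd (u ++ c :: p) m x)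
      (fun _ _ => zero_le) h4)
    show iw (B ∩ al) x * S.xd (S.nd m x (p.length + 1 + n)) m x ≤ iw B x * S.xd (u ++ c :: p) m x
    rw [h2]
    refine mul_le_mul_left ?_ _
    unfold iw
    rw [indicator_of_mem hx, indicator_of_mem hx.1]
  · have h0 : iw (B ∩ al) x = 0 := by unfold iw; exact indicator_of_notMem hx _
    show iw (B ∩ al) x * _ ≤ _
    rw [h0, zero_mul]
    exact zero_le

/-! ### dimensions -/

lemma finrank_good {m : ℕ} (hm : S.mv.tm m < S.T) {q : List ℕ} :
    ∀ u : List ℕ, S.GoodL q u m →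
      Module.finrank ℝ (S.W q m) + u.length ≤ Module.finrank ℝ (S.W (u ++ q) m)
  | [], _ => by simp
  | a :: u, h => by
    have h1 : S.GoodL q u m := fun v w e hv => by
      refine h (a :: v) w ?_ (by simp)
      rw [e]; rfl
    have h2 := finrank_good hm u h1
    have h3 : ¬ S.Leaf (u ++ q) m := h [a] u rfl (by simp)
    have h4 := Submodule.finrank_lt_finrank_of_lt (W_lt hm h3 a)
    rw [List.cons_append, List.length_cons]
    omega

lemma gap_le {m : ℕ} (hm : S.mv.tm m < S.T) {c : ℕ} {p : List ℕ} (hj : S.mv.jj m = c :: p)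
    {u : List ℕ} (h : S.GoodL (c :: p) u m) :
    S.kr m + u.length ≤
      Module.finrank ℝ (S.W (u ++ c :: p) m) - Module.finrank ℝ (S.W p m) := by
  have h1 := finrank_good hm u h
  have h2 := S.K.finrank_cons c p (S.mv.tm m)
  unfold kr
  rw [hj]
  unfold W at h1 ⊢
  omega

/-! ### constants -/

lemma sq_le_four_pow (n : ℕ) : ((n : ℝ) + 2) ^ 2 ≤ 4 * 4 ^ n := by
  induction n with
  | zero => norm_num
  | succ n ih =>
    push_cast
    have h0 : (0 : ℝ) ≤ n := Nat.cast_nonneg n
    have e : (4 : ℝ) ^ (n + 1) = 4 ^ n * 4 := pow_succ 4 n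
    rw [e]
    nlinarith

lemma list_const {C1 C2 ph kap th : ℝ} {cm n kr g : ℕ} (hC1 : 0 ≤ C1) (hC2 : 0 ≤ C2)
    (hph : 0 ≤ ph) (hkap : 0 < kap) (hkap1 : kap ≤ 1) (hth : 0 ≤ th) (hg : kr + n ≤ g) :
    ((cm : ℝ) + 1) ^ n * (C1 * ((n : ℝ) + 2) ^ 2 * ph * (kap ^ g) ^ th * C2) ≤
      4 * C1 * C2 * ph * (4 * ((cm : ℝ) + 1) * kap ^ th) ^ (kr + n) := by
  have h1 : (kap ^ g) ^ th ≤ (kap ^ th) ^ (kr + n) := by
    calc (kap ^ g) ^ th ≤ (kap ^ (kr + n)) ^ th :=
          Real.rpow_le_rpow (by positivity) (pow_le_pow_of_le_one hkap.le hkap1 hg) hth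
      _ = (kap ^ th) ^ (kr + n) := by
          rw [← Real.rpow_natCast kap, ← Real.rpow_mul hkap.le, mul_comm, Real.rpow_mul hkap.le,
            Real.rpow_natCast]
  have h2 : ((cm : ℝ) + 1) ^ n ≤ ((cm : ℝ) + 1) ^ (kr + n) :=
    pow_le_pow_right₀ (by have : (0 : ℝ) ≤ cm := Nat.cast_nonneg _; linarith) (by omega)
  have h3 : ((n : ℝ) + 2) ^ 2 ≤ 4 * 4 ^ (kr + n) := (sq_le_four_pow n).trans (by
    have : (4 : ℝ) ^ n ≤ 4 ^ (kr + n) := pow_le_pow_right₀ (by norm_num) (by omega)
    linarith)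
  have h4 : (0 : ℝ) ≤ (kap ^ g) ^ th := by positivity
  calc ((cm : ℝ) + 1) ^ n * (C1 * ((n : ℝ) + 2) ^ 2 * ph * (kap ^ g) ^ th * C2)
      ≤ ((cm : ℝ) + 1) ^ (kr + n) * (C1 * (4 * 4 ^ (kr + n)) * ph * (kap ^ th) ^ (kr + n) * C2) := by
        gcongr
    _ = 4 * C1 * C2 * ph * (4 * ((cm : ℝ) + 1) * kap ^ th) ^ (kr + n) := by
        rw [mul_pow, mul_pow]; ring

/-! ### counted labels of class `≥ 1` -/

/-- the layer cake functional at a counted label of class `≥ 1` -/
lemma Psi_le_psi_sl {m : ℕ} (hm : S.mv.tm m < S.T) {p : List ℕ} {x : E}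
    (hom : x ∈ S.om p m) (hk : S.kl p m x ≠ 0) :
    Psi (1 - S.th) (2 * S.De p m x) ≤
      ENNReal.ofReal (CPs (1 - S.th)) * (S.psi p m x * S.sl p m x) := by
  have hs : 0 < 1 - S.th := by linarith [S.hth1]
  have hs1 : 1 - S.th ≤ 1 := by linarith [S.hth]
  have h1 : S.De p m x ≤ S.Db p m x := De_le_Db (Same.refl (zero_mem_BB p m x) hm)
  have h2 : S.Db p m x < ENNReal.ofReal (1 / 10) := Db_lt_of_pos hm (Nat.one_le_iff_ne_zero.2 hk)
  have h3 : 0 < S.Db p m x := (S.A_pos p m x).trans_le (A_le_Db_of_om hm hom)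
  have ht : S.Db p m x ≠ ⊤ := (h2.trans ENNReal.ofReal_lt_top).ne
  set Y : ℝ := (S.Db p m x).toReal with hY
  have hYe : S.Db p m x = ENNReal.ofReal Y := (ENNReal.ofReal_toReal ht).symm
  have hY0 : 0 < Y := ENNReal.toReal_pos h3.ne' ht
  have hY1 : Y ≤ 1 := by
    have := (ENNReal.toReal_lt_toReal ht ENNReal.ofReal_ne_top).2 h2
    rw [ENNReal.toReal_ofReal (by norm_num)] at this
    rw [hY]
    linarith
  have h4 : Psi (1 - S.th) (2 * S.De p m x) ≤ Psi (1 - S.th) (ENNReal.ofReal (2 * Y)) := by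
    apply H837.Psi_mono hs.le
    rw [ENNReal.ofReal_mul (by norm_num), ← hYe, ENNReal.ofReal_ofNat]
    gcongr
  refine h4.trans ((Psi_two_le hs hs1 hY0 hY1).trans ?_)
  unfold psi sl
  rw [if_neg hk, if_neg hk, ← hYe]

/-! ### (THRp) -/

/-- **(THRp) from the throughput of one list**: the sum over the lists of classes costs `cm + 1` per
level -/
theorem thrp_lists {C1 : ℝ} (hC1 : 0 ≤ C1) (h : S.OneL C1) :
    S.THRp (8 * C1 * CPs (1 - S.th)) (4 * ((S.cm : ℝ) + 1) * S.kap ^ S.th) := by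
  classical
  intro m hmT hr c p hj hc i hi hi'
  have hm : S.mv.tm m < S.T := by
    refine S.mv.tm_lt_of_lt ?_
    unfold Sys.mT at hmT
    omega
  have hs : 0 < 1 - S.th := by linarith [S.hth1]
  obtain ⟨n, rfl⟩ := Nat.exists_eq_add_of_le hi
  have hph : 0 ≤ S.mv.ph m := (S.mv.ph_nonneg m)
  rw [Nat.add_sub_cancel_left]
  set B := S.thru (p.length + 1) m ∩ S.OL (p.length + 1) m with hB
  have key := thq_le_lists hm hj n (al := S.alj (p.length + 1) (p.length + 1 + n) m)
    (fun x hx k hk hk' => (hx k hk hk').2)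
  refine le_trans key ?_
  set CP := CPs (1 - S.th) with hCP
  have hCP0 : 0 < CP := CPs_pos hs
  -- one list
  have hone : ∀ u ∈ (lst S.cm n).filter fun u => S.GoodL (c :: p) u m,
      ∫⁻ x, iw B x * fib (S.W p m) (S.xd (u ++ c :: p) m) x ∂stdGaussian E ≤
        ENNReal.ofReal (C1 * ((n : ℝ) + 2) ^ 2 * S.mv.ph m * (S.kap ^ (S.kr m + n)) ^ S.th * CP) *
          S.RwS p.length m := by
    intro u hu
    rw [Finset.mem_filter, mem_lst] at hu
    obtain ⟨⟨hu1, hu2⟩, hu3⟩ := hu
    unfold RwS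
    rw [← lintegral_const_mul _ (by
      refine (measurable_iw_L ((measurableSet_thru_L _ _).inter (measurableSet_OL _ _))).mul ?_
      exact Measurable.mul (Measurable.mul
        (measurable_nd m _ (F := fun r => S.As S.th r m) fun r => S.As_meas _ r m)
        (measurable_nd m _ (F := fun r => S.psi r m) fun r => psi_meas r m))
        (measurable_nd m _ (F := fun r => S.sl r m) fun r => sl_meas_L r m))]
    refine lintegral_mono fun x => ?_
    show iw B x * _ ≤ _ * (iw B x * _)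
    by_cases hx : x ∈ B
    swap
    · have h0 : iw B x = 0 := by unfold iw; exact indicator_of_notMem hx _
      rw [h0]; simp
    have h1 : iw B x = 1 := by unfold iw; rw [indicator_of_mem hx]; rfl
    rw [h1, one_mul, one_mul]
    have h2 : S.nd m x (p.length + 1) = c :: p := by rw [← hj]; exact hx.1
    obtain ⟨h3, h4⟩ := nd_of_thru_L h2
    have hom : x ∈ S.om p m := by
      have := hx.2 p.length (Nat.lt_succ_self _)
      rwa [h3] at this
    rw [h3]
    have h5 := h m hmT hr c p hj u hu2 hu3 x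
    have h6 := Psi_le_psi_sl hm hom (by rw [h4]; exact hc)
    have hgap := gap_le hm hj hu3
    rw [hu1] at hgap h5
    refine h5.trans ?_
    have h7 : ENNReal.ofReal (C1 * ((n : ℝ) + 2) ^ 2 * S.mv.ph m *
        (S.kap ^ (Module.finrank ℝ (S.W (u ++ c :: p) m) - Module.finrank ℝ (S.W p m))) ^ S.th) ≤
        ENNReal.ofReal (C1 * ((n : ℝ) + 2) ^ 2 * S.mv.ph m * (S.kap ^ (S.kr m + n)) ^ S.th) := by
      apply ENNReal.ofReal_le_ofReal
      have h8 : (S.kap ^ (Module.finrank ℝ (S.W (u ++ c :: p) m) -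
          Module.finrank ℝ (S.W p m))) ^ S.th ≤ (S.kap ^ (S.kr m + n)) ^ S.th :=
        Real.rpow_le_rpow (by have := S.hkap; positivity)
          (pow_le_pow_of_le_one S.hkap.le S.hkap1 hgap) S.hth.le
      gcongr
    calc _ ≤ ENNReal.ofReal (C1 * ((n : ℝ) + 2) ^ 2 * S.mv.ph m * (S.kap ^ (S.kr m + n)) ^ S.th) *
          (S.As S.th p m x * (ENNReal.ofReal CP * (S.psi p m x * S.sl p m x))) := by gcongr
      _ = _ := by
        rw [ENNReal.ofReal_mul' hCP0.le]
        ring
  refine (Finset.sum_le_sum hone).trans ?_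
  rw [Finset.sum_const, nsmul_eq_mul, ← mul_assoc]
  have hRw := RwS_le (S := S) (j := p.length) hmT
  have e8 : ENNReal.ofReal (8 * C1 * CP * S.mv.ph m *
      (4 * ((S.cm : ℝ) + 1) * S.kap ^ S.th) ^ (S.kr m + n)) * S.Rw p.length m =
      ENNReal.ofReal (4 * C1 * CP * S.mv.ph m *
      (4 * ((S.cm : ℝ) + 1) * S.kap ^ S.th) ^ (S.kr m + n)) * (2 * S.Rw p.length m) := by
    rw [← mul_assoc, mul_comm (ENNReal.ofReal _) (2 : ℝ≥0∞),
      show (2 : ℝ≥0∞) = ENNReal.ofReal 2 from by norm_num, ← ENNReal.ofReal_mul (by norm_num)]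
    congr 2
    ring
  rw [e8]
  refine mul_le_mul' ?_ hRw
  have hcard : (((lst S.cm n).filter fun u => S.GoodL (c :: p) u m).card : ℝ≥0∞) ≤
      ENNReal.ofReal (((S.cm : ℝ) + 1) ^ n) := by
    have h1 : ((lst S.cm n).filter fun u => S.GoodL (c :: p) u m).card ≤ (S.cm + 1) ^ n :=
      (Finset.card_filter_le _ _).trans (card_lst _ _)
    rw [← ENNReal.ofReal_natCast]
    apply ENNReal.ofReal_le_ofReal
    exact_mod_cast h1
  calc _ ≤ ENNReal.ofReal (((S.cm : ℝ) + 1) ^ n) * ENNReal.ofReal (C1 * ((n : ℝ) + 2) ^ 2 *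
        S.mv.ph m * (S.kap ^ (S.kr m + n)) ^ S.th * CP) := by gcongr
    _ = ENNReal.ofReal (((S.cm : ℝ) + 1) ^ n * (C1 * ((n : ℝ) + 2) ^ 2 *
        S.mv.ph m * (S.kap ^ (S.kr m + n)) ^ S.th * CP)) :=
        (ENNReal.ofReal_mul (p := ((S.cm : ℝ) + 1) ^ n) (by positivity)).symm
    _ ≤ _ := ENNReal.ofReal_le_ofReal
        (list_const hC1 hCP0.le hph S.hkap S.hkap1 S.hth.le le_rfl)

end Vale.Agent.P262.M2.Sys
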