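import Vale.Agent.P262.H706.Theta
import Vale.Agent.P262.H711.Inst
import Vale.Agent.P262.M2.Blocks

/-!
# P262, milestone 2, THR: the direction `θ` of a rotation on the system
-/

set_option linter.all false

open MeasureTheory ProbabilityTheory Set
open scoped ENNReal RealInnerProductSpace
open Vale.Agent.P262.H395 (fib mix Inv inv_fib measurable_fib fib_mono)
open Vale.Agent.P262.H118 (ly0 lyd ly1 la sg mem_sg ON measurableSet_la la_add measurableSet_lyd)
open Vale.Agent.P262.H711 (Fam tau measurable_tau)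

namespace Vale.Agent.P262.M2.Sys

variable {E : Type*} [NormedAddCommGroup E] [InnerProductSpace ℝ E] [FiniteDimensional ℝ E]
  [MeasurableSpace E] [BorelSpace E] {S : Sys E} {m : ℕ} {θ : E} {b : List ℕ → E}

lemma tau_zero_pay {F : Fam E (List ℕ)} {Ok : List ℕ → Prop} {N : ℕ} (hF : F.Str Ok N) (n : ℕ)
    (r : List ℕ) (x : E) : tau F (fun _ _ => 0) n r x = 0 := by
  have := H962.tau_const_mul hF (g := fun _ _ => 0) (fun _ => measurable_const) 0 n r x
  simpa using this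

lemma gTaL_ph_zero (h : S.mv.ph m = 0) (q : List ℕ) (θ : E) (b : List ℕ → E) (o : Bool) (ε : ℝ)
    (a : ℕ) : S.gTaL m q θ b o ε a = fun _ _ => 0 := by
  funext r y
  unfold gTaL
  have e : lyd (S.bd q m o) (S.bd q m (!o)) (la (b q) a) (ε • θ) (4 * S.mv.ph m * 2 ^ a) = ∅ := by
    ext z
    simp only [lyd, h, mul_zero, zero_mul, zero_smul, add_zero, mem_setOf_eq, mem_empty_iff_false,
      iff_false]
    rintro ⟨-, h1, -, h2⟩
    exact h2 h1
  rw [e]
  have : S.mu q (∅ : Set E) r m y = 0 := by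
    unfold mu
    rw [preimage_empty, indicator_empty']
    exact H395.fib_const _ 0 y
  rw [this, ENNReal.zero_div]

/-- one layer -/
theorem gTaL_dir (hm : S.mv.tm m < S.T) (hrot : S.mv.IsRot m) (hth : S.th = 1 / 2)
    (hk : S.kq ≤ 1) {c : ℕ} {p0 : List ℕ} (H : S.RotB m (c :: p0) θ b) (hq : S.mv.jj m = c :: p0)
    {x : E} (hc : S.kl p0 m x = c) (hleaf : ¬ S.Leaf p0 m) (o : Bool) {ε : ℝ} (hε : ε ∈ sg)
    (a : ℕ) {al be : ℝ} (hab : Pair al be) (n : ℕ) :
    fib (S.W p0 m) (fun y => S.cw (c :: p0) m y *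
        tau (S.fam m) (S.gTaL m (c :: p0) θ b o ε a) n (c :: p0) y) x ≤
      ENNReal.ofReal (80 * (4 * S.mv.ph m * 2 ^ a)) * ((12 * ENNReal.ofReal S.kq) ^ n *
        ENNReal.ofReal (S.kq ^ (Module.finrank ℝ (S.W (c :: p0) m) -
          Module.finrank ℝ (S.W p0 m)))) * (S.Dk c p0 m x ^ al *
        fib (S.W p0 m) ((la (b (c :: p0)) a).indicator 1) x ^ be) := by
  have hF := S.fam_str hm (c :: p0)
  rcases (S.mv.ph_nonneg m).eq_or_lt with h0 | h0
  · rw [gTaL_ph_zero h0.symm]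
    simp_rw [tau_zero_pay hF n, mul_zero]
    rw [H395.fib_const]
    exact zero_le
  have hh : 0 < 4 * S.mv.ph m * 2 ^ a := by positivity
  have hθ := H.mem
  have hθp : θ ∈ (S.W p0 m)ᗮ := H.perp
  have hθ1 : ‖θ‖ = 1 := (H.on _ (List.suffix_refl _)).hp
  have hε1 : ‖ε • θ‖ = 1 := by
    rw [norm_smul, hθ1, mul_one]
    rcases mem_sg.1 hε with rfl | rfl <;> simp
  have hbθ : ⟪b (c :: p0), ε • θ⟫ = 0 := by
    rw [inner_smul_right, real_inner_comm, H.inner_θ_b (List.suffix_refl _), mul_zero]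
  have key := S.dir_sys hm hrot hth hk o (p0 := p0) (x0 := x) hc hleaf
    (e := ε • θ) (Submodule.smul_mem _ _ hθ) (Submodule.smul_mem _ _ hθp) hε1
    (L := la (b (c :: p0)) a) (measurableSet_la _ _) (la_add hbθ) hab hh n
  have hmono : ∀ y, tau (S.fam m) (S.gTaL m (c :: p0) θ b o ε a) n (c :: p0) y ≤
      tau (S.fam m) (S.gq m o (c :: p0) (la (b (c :: p0)) a) (ε • θ) (4 * S.mv.ph m * 2 ^ a)) n
        (c :: p0) y := fun y =>
    H962.tau_mono (Q := fun _ r => (c :: p0) <:+ r)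
      (fun _ _ _ hr _ => hr.trans (List.suffix_cons _ _))
      (fun r x hr => (gTaL_eq_gB hrot hq hθ hr o ε a x).le) n _ y (List.suffix_refl _)
  have e1 : fib (S.W p0 m) (S.mu (c :: p0) (la (b (c :: p0)) a) (c :: p0) m) x =
      fib (S.W p0 m) ((la (b (c :: p0)) a).indicator 1) x := by
    have : S.mu (c :: p0) (la (b (c :: p0)) a) (c :: p0) m =
        fib (S.W (c :: p0) m) ((la (b (c :: p0)) a).indicator 1) := by
      funext y; exact S.mu_self y
    rw [this]
    exact H395.fib_tower (S.W_le c p0 m) (measurable_one.indicator (measurableSet_la _ _)) x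
  rw [e1] at key
  have e2 : ENNReal.ofReal (80 * (4 * S.mv.ph m * 2 ^ a)) =
      2 * ENNReal.ofReal (40 * (4 * S.mv.ph m * 2 ^ a)) := by
    rw [show 80 * (4 * S.mv.ph m * 2 ^ a) = 2 * (40 * (4 * S.mv.ph m * 2 ^ a)) from by ring,
      ENNReal.ofReal_mul (by norm_num : (0 : ℝ) ≤ 2), ENNReal.ofReal_ofNat]
  rw [e2]
  generalize ENNReal.ofReal (40 * (4 * S.mv.ph m * 2 ^ a)) = A at key ⊢
  refine (fib_mono (fun y => mul_le_mul_right (hmono y) _) x).trans (key.trans (le_of_eq ?_))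
  ring

/-- **the direction `θ`** at the parent of the rotating node -/
theorem gTL_dir (hm : S.mv.tm m < S.T) (hrot : S.mv.IsRot m) (hth : S.th = 1 / 2)
    (hk : S.kq ≤ 1) {c : ℕ} {p0 : List ℕ} (H : S.RotB m (c :: p0) θ b) (hq : S.mv.jj m = c :: p0)
    {x : E} (hc : S.kl p0 m x = c) (hleaf : ¬ S.Leaf p0 m) (o : Bool) {ε : ℝ} (hε : ε ∈ sg)
    (n : ℕ) :
    fib (S.W p0 m) (fun y => S.cw (c :: p0) m y *
        tau (S.fam m) (S.gTL m (c :: p0) θ b o ε) n (c :: p0) y) x ≤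
      ENNReal.ofReal (44800 * S.mv.ph m) * ((12 * ENNReal.ofReal S.kq) ^ n *
        ENNReal.ofReal (S.kq ^ (Module.finrank ℝ (S.W (c :: p0) m) -
          Module.finrank ℝ (S.W p0 m)))) * (2 ^ c * S.Dk c p0 m x ^ (1 / 2 : ℝ)) := by
  have hF := S.fam_str hm (c :: p0)
  have hY : S.thr c ≤ S.Dk c p0 m x := by
    have := S.thr_le_Dk p0 m x
    rwa [hc] at this
  have key := theta_sum_L hF H (List.suffix_cons c p0) o ε n (w := S.cw (c :: p0) m)
    (S.cw_meas _ _) (x := x) (c := c) (Y := S.Dk c p0 m x)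
    (K0 := (12 * ENNReal.ofReal S.kq) ^ n * ENNReal.ofReal (S.kq ^ (Module.finrank ℝ
      (S.W (c :: p0) m) - Module.finrank ℝ (S.W p0 m)))) (CD := 80) (by norm_num) hY
    (S.Dk_ne_top c p0 m x)
    (fun a => by
      have := gTaL_dir hm hrot hth hk H hq hc hleaf o hε a (Or.inl ⟨rfl, rfl⟩) n
      rwa [ENNReal.rpow_zero, mul_one] at this)
    (fun a => gTaL_dir hm hrot hth hk H hq hc hleaf o hε a (Or.inr ⟨rfl, rfl⟩) n)
  norm_num at key ⊢
  exact key

/-- the right side in the names of `M2/Blocks` -/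
lemma s2_psi_eq (hm : S.mv.tm m < S.T) (hth : S.th = 1 / 2) {p : List ℕ} {x : E} {c : ℕ}
    (hom : x ∈ S.om p m) (hc : S.kl p m x = c) (hc0 : c ≠ 0) :
    (2 : ℝ≥0∞) ^ c * S.Dk c p m x ^ (1 / 2 : ℝ) = S.psi p m x * S.s2 p m x := by
  have h1 : S.Dk c p m x = S.Db p m x := by
    unfold Dk Db
    rw [hc]
    apply max_eq_left
    have := A_le_Db_of_om hm hom
    unfold Db at this
    rwa [hc] at this
  unfold psi s2
  rw [if_neg (by rw [hc]; exact hc0), hc, h1, hth, mul_comm]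
  norm_num

end Vale.Agent.P262.M2.Sys
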