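import Vale.Agent.P262.H706.SumL
import Vale.Agent.P262.H502.Geo2
import Vale.Agent.P262.H431.Thr10

/-!
# P262, milestone 2: the whole throughput (THR), road (A): sum over the lists of classes

`lam = 4 (cm + 1) kap ^ th`; this is the throughput needed for `σ ≤ C √(d log log d)`.
-/

set_option linter.all false

open MeasureTheory ProbabilityTheory Set
open scoped ENNReal RealInnerProductSpace
open Vale.Agent.P262.H706 (CPs CPs_pos)

namespace Vale.Agent.P262.M2.Sys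

variable {E : Type*} [NormedAddCommGroup E] [InnerProductSpace ℝ E] [FiniteDimensional ℝ E]
  [MeasurableSpace E] [BorelSpace E] {S : Sys E}

/-- constant of the throughput of one list -/
noncomputable def cOne (th : ℝ) : ℝ := 20 / (1 - th) * (2 * Real.exp (8 / th ^ 2)) ^ th

lemma cOne_nonneg {th : ℝ} (h : th < 1) : 0 ≤ cOne th := by
  have : 0 < 1 - th := by linarith
  unfold cOne
  positivity

theorem oneL (hε : 2 * (Real.sqrt 2 * Real.exp (-(S.qq / 4))) ≤ 1 / 4) : S.OneL (cOne S.th) := by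
  intro m hm hr c p hj u _ hu x
  exact one_list hε hm hr hj u hu x

/-- **(THRp), road (A)** -/
theorem thrp_A (hε : 2 * (Real.sqrt 2 * Real.exp (-(S.qq / 4))) ≤ 1 / 4) :
    S.THRp (8 * cOne S.th * CPs (1 - S.th)) (4 * ((S.cm : ℝ) + 1) * S.kap ^ S.th) :=
  thrp_lists (cOne_nonneg S.hth1) (oneL hε)

lemma THRp.mono_L {CT lam CT' lam' : ℝ} (h : S.THRp CT lam) (hC : CT ≤ CT')
    (hC0 : 0 ≤ CT') (hl0 : 0 ≤ lam) (hl : lam ≤ lam') : S.THRp CT' lam' := by
  intro m hm hr c p hj hc i hi hi'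
  refine (h m hm hr c p hj hc i hi hi').trans ?_
  have hph := S.mv.ph_nonneg m
  refine mul_le_mul_left (ENNReal.ofReal_le_ofReal ?_) _
  gcongr

/-- constant of the throughput, road (A) -/
noncomputable def cTA (th : ℝ) : ℝ := 8 * cOne th * CPs (1 - th) + 2 * H431.cThr

lemma cTA_nonneg {th : ℝ} (h : th < 1) : 0 ≤ cTA th := by
  have h1 := cOne_nonneg h
  have h2 := CPs_pos (s := 1 - th) (by linarith)
  have h3 := H431.cThr_pos
  unfold cTA
  positivity

/-- **(THR), road (A)** -/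
theorem thr_A (H : H431.ThrC S) (hroot : ∀ m, m < S.mT → ∀ x, S.kl [] m x ≠ 0)
    (hε : 2 * (Real.sqrt 2 * Real.exp (-(S.qq / 4))) ≤ 1 / 4) :
    S.THR (cTA S.th) (4 * ((S.cm : ℝ) + 1) * S.kap ^ S.th) := by
  have h0 := cTA_nonneg S.hth1
  have h1 := cOne_nonneg S.hth1
  have h2 := CPs_pos (s := 1 - S.th) (by linarith [S.hth1])
  have h3 := H431.cThr_pos
  have hk : 0 ≤ S.kap ^ S.th := Real.rpow_nonneg S.hkap.le _
  have hl : (0 : ℝ) ≤ 4 * ((S.cm : ℝ) + 1) * S.kap ^ S.th := by positivity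
  refine THR_of S ((thrp_A hε).mono_L ?_ h0 hl le_rfl) (H431.THR0_lists H hroot ?_ ?_)
  · unfold cTA; linarith
  · unfold cTA
    have : 0 ≤ 8 * cOne S.th * CPs (1 - S.th) := by positivity
    linarith
  · have : (0 : ℝ) ≤ ((S.cm : ℝ) + 1) * S.kap ^ S.th := by positivity
    linarith

/-- the numerical hypothesis on `qq` -/
lemma eps_of_qq (h : 100 ≤ S.qq) : 2 * (Real.sqrt 2 * Real.exp (-(S.qq / 4))) ≤ 1 / 4 := by
  have h1 : Real.exp (-(S.qq / 4)) ≤ Real.exp (-25) := Real.exp_le_exp.mpr (by linarith)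
  have h2 : Real.exp (-25) ≤ 1 / 26 := by
    rw [Real.exp_neg, one_div]
    apply inv_anti₀ (by norm_num)
    have := Real.add_one_le_exp (25 : ℝ)
    linarith
  have h3 : Real.sqrt 2 ≤ 2 := by
    rw [Real.sqrt_le_iff]; norm_num
  have h4 : 0 ≤ Real.sqrt 2 := Real.sqrt_nonneg _
  calc 2 * (Real.sqrt 2 * Real.exp (-(S.qq / 4))) ≤ 2 * (2 * (1 / 26)) := by gcongr; linarith
    _ ≤ 1 / 4 := by norm_num

/-- **(THR), road (A)**, from 431's numerical hypotheses only -/
theorem thr_A' (H : H431.ThrC S) (hroot : ∀ m, m < S.mT → ∀ x, S.kl [] m x ≠ 0) :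
    S.THR (cTA S.th) (4 * ((S.cm : ℝ) + 1) * S.kap ^ S.th) :=
  thr_A H hroot (eps_of_qq H.qq)

end Vale.Agent.P262.M2.Sys
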